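import Vale.Agent.P277.H762.P.GermP
import Vale.Agent.P277.H335.K.RegL
import Vale.Agent.P277.H884.G.P7G

/-!
# P277, (P): the numerical conditions satisfied by the blow-ups of the flipped surfaces
-/

open scoped Manifold ContDiff Topology
open Vale.Agent.P272.K Vale.Agent.P285.H281.FD Vale.Agent.P267.H175 Set Filter Metric

noncomputable section

namespace Vale.Agent.P277.H762.P

open Vale.Agent.P277 Vale.Agent.P277.T2 Vale.Agent.P277.H335 Vale.Agent.P277.H615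
open Vale.Agent.P277.H335.KK

/-- the blow-up chart is injective outside `{w 0 = 0}` -/
theorem bl_inj {w w' : Cm 4} (h : bl w = bl w') (h0 : w 0 ≠ 0) : w = w' := by
  have e0 : w 0 = w' 0 := congrFun h 0
  have e1 : w 0 * w 1 = w' 0 * w' 1 := congrFun h 1
  have e2 : w 2 = w' 2 := congrFun h 2
  have e3 : w 3 = w' 3 := congrFun h 3
  have e1' : w 1 = w' 1 := by
    rw [← e0] at e1
    exact mul_left_cancel₀ h0 e1
  funext j
  fin_cases j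
  · exact e0
  · exact e1'
  · exact e2
  · exact e3

/-- the numerical conditions at a generic germ -/
theorem num_germ {Y : Type} [TopologicalSpace Y] [T2Space Y] [CompactSpace Y]
    [ChartedSpace (Cm 4) Y] [IsManifold 𝓘(ℂ, Cm 4) ω Y] {k s r : ℕ} {X : CSp}
    {M : Fin (k + s) → Bd Y} {m : Fin (k + s) → ℕ} (hM : ∀ e, IsLB 4 (M e))
    {ρ : Fin (k + s) → ℝ}
    {H : Fin s → Type} [∀ i, TopologicalSpace (H i)]
    [∀ i, ChartedSpace (Cm 3) (H i)] {ι : ∀ i, H i → Y}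
    {sg : ∀ i : Fin s, (M (Fin.natAdd k i)).ι → Y → ℂ}
    (hbd : ∀ i, T3.IsBd (ι i) (M (Fin.natAdd k i)) (sg i))
    (hdis : Pairwise fun i j => Disjoint (range (ι i)) (range (ι j)))
    {G : Fin r → Set Y} {a : Fin r → ℝ}
    {L : Fin (k + s) → Bd X.pt} {O : Set Y} {v : Y → X.pt}
    {T : ∀ e, (L e).ι → (((Bd.can 4 Y).pow (m e)).mul (M e)).ι → Y → ℂ}
    {S : Set X.pt} (hSO : S ⊆ (v '' O)ᶜ)
    (hdn : ∀ i, range (ι i) ⊆ closure (range (ι i) ∩ O))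
    {ξ : Cm 4 → X.pt} {R : ℝ} (hξ : H19.LocIso X ξ (ball 0 R))
    {W : Set (Cm 4)} {w₂ : Cm 4} {γ : Cm 4 → Y} {ch : Chart 4 Y} {μ : ∀ e, (M e).ι}
    {i : ∀ e, (L e).ι} {x : Fin (k + s) → ℚ} {J : ℕ}
    (hWB : ∀ w ∈ W, bl w ∈ ball (0 : Cm 4) R)
    (hg : GermV O v T S W w₂ (fun w => ξ (bl w)) γ ch μ i x J) (hJ1 : 1 ≤ J)
    {g : Fin s → ℕ} {Φg : Fin s → Cm 4 → ℂ} (hΦg : ∀ b, AnalyticAt ℂ (Φg b) w₂)
    (hΦg0 : ∀ b, Φg b w₂ ≠ 0)
    (hgg : ∀ b, ∀ᶠ w in 𝓝 w₂, sg b (μ (Fin.natAdd k b)) (γ w) = w 0 ^ g b * Φg b w)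
    {ζ : Fin r → Y → ℂ} {ν : Fin r → ℕ} {Φ : Fin r → Cm 4 → ℂ}
    (hζ : ∀ l, IsLEq (G l) (γ w₂) (ζ l)) (hΦ : ∀ l, AnalyticAt ℂ (Φ l) w₂)
    (hΦ0 : ∀ l, Φ l w₂ ≠ 0) (hζΦ : ∀ l, ∀ᶠ w in 𝓝 w₂, ζ l (γ w) = w 0 ^ ν l * Φ l w)
    {Nn : ℝ} (hN0 : 0 ≤ Nn)
    (hineq : ∑ l, a l * ν l < 1 - J + ∑ b : Fin s, ρ (Fin.natAdd k b) * g b - Nn)
    (hmem : γ w₂ ∈ T3.bad ι G {l | a l < 0} {i | 1 ≤ ρ (Fin.natAdd k i)})
    (hA1 : ∀ l, 1 ≤ ν l → -1 ≤ a l) (hA2 : ∀ b, 1 ≤ g b → ρ (Fin.natAdd k b) ≤ 1)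
    (hA3 : ∀ l, 1 ≤ ν l → a l < 0 → ∀ l', l' ≠ l → a l' < 0 → ν l' = 0)
    (hA4 : ∀ l, 1 ≤ ν l → a l < 0 → ∀ b, g b = 0) :
    (∃ l, -1 ≤ a l ∧ a l < 0 ∧ ν l = J ∧ (1 - (-a l)) * J < 1 - Nn) ∨
      (∃ b, ρ (Fin.natAdd k b) = 1 ∧ g b = J ∧ (1 - (1 : ℝ)) * J < 1 - Nn) := by
  obtain ⟨ΦJ, hΦ1, hΦ2, hΦ3⟩ := hg.jac
  have hcy := hg.lift w₂ hg.mem
  have hinG : ∀ l, γ w₂ ∈ G l → 1 ≤ ν l := by
    intro l hl
    by_contra h
    have h0 : ν l = 0 := by omega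
    have h1 := (hζ l).1.self_of_nhds.2 hl
    rw [(hζΦ l).self_of_nhds, h0, pow_zero, one_mul] at h1
    exact hΦ0 l h1
  have hinH : ∀ b, γ w₂ ∈ range (ι b) ↔ 1 ≤ g b := by
    intro b
    have h1 := (hbd b).zero _ _ (hg.memN w₂ hg.mem (Fin.natAdd k b))
    rw [(hgg b).self_of_nhds, hg.zero] at h1
    rw [← h1]
    constructor
    · intro h2
      by_contra h3
      have h4 : g b = 0 := by omega
      rw [h4, pow_zero, one_mul] at h2
      exact hΦg0 b h2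
    · intro h2
      rw [zero_pow (by omega), zero_mul]
  by_cases hneg : ∃ l, 1 ≤ ν l ∧ a l < 0
  · left
    obtain ⟨l, hl1, hl0⟩ := hneg
    have hl2 := hA1 l hl1
    have hg0 := hA4 l hl1 hl0
    have hs0 : ∑ b : Fin s, ρ (Fin.natAdd k b) * (g b : ℝ) = 0 :=
      Finset.sum_eq_zero fun b _ => by rw [hg0 b, Nat.cast_zero, mul_zero]
    rw [hs0, add_zero] at hineq
    have hsum : a l * ν l ≤ ∑ l, a l * (ν l : ℝ) := by
      rw [← Finset.add_sum_erase _ _ (Finset.mem_univ l)]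
      have h1 : 0 ≤ ∑ l' ∈ Finset.univ.erase l, a l' * (ν l' : ℝ) := by
        refine Finset.sum_nonneg fun l' hl' => ?_
        rcases lt_or_ge (a l') 0 with h2 | h2
        · rw [hA3 l hl1 hl0 l' (Finset.ne_of_mem_erase hl') h2, Nat.cast_zero, mul_zero]
        · exact mul_nonneg h2 (Nat.cast_nonneg _)
      linarith
    have hνJ : ν l ≤ J := by
      by_contra hcon
      have h2 : 2 ≤ ν l := by omega
      have hz0 : ζ l (γ w₂) = 0 := by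
        rw [(hζΦ l).self_of_nhds, hg.zero, zero_pow (by omega), zero_mul]
      obtain ⟨m1, m2⟩ := (hζ l).2 ch hcy.2.1
      have h3 := eventually_pair hg.zero hcy.1 hcy.2.1 hcy.2.2 m1 (m2 hz0) h2 (hΦ l) (hΦ0 l)
        hΦ1 hΦ2 (hζΦ l) hΦ3 hcon (hg.isOpen.mem_nhds hg.mem)
      obtain ⟨w, ⟨hwO, hw0⟩, hpair, hwW⟩ := ((hg.freqO hSO hg.mem).and_eventually
        (h3.and (hg.isOpen.mem_nhds hg.mem))).exists
      obtain ⟨w', hw'W, hne, hγγ⟩ := hpair hw0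
      have h4 : ξ (bl w) = ξ (bl w') := by
        have h5 := hg.lift2 w hwW hwO
        have h6 := hg.lift2 w' hw'W (by rw [hγγ]; exact hwO)
        rw [hγγ] at h6
        exact h5.symm.trans h6
      exact hne (bl_inj (hξ.inj (hWB w hwW) (hWB w' hw'W) h4) hw0).symm
    have h1 : (ν l : ℝ) ≤ J := by exact_mod_cast hνJ
    have hJν : ν l = J := by
      by_contra hcon
      have h2 : ν l + 1 ≤ J := by omega
      have h3 : (ν l : ℝ) + 1 ≤ J := by exact_mod_cast h2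
      have h4 : (0 : ℝ) ≤ ν l := Nat.cast_nonneg _
      nlinarith
    refine ⟨l, hl2, hl0, hJν, ?_⟩
    rw [hJν] at hsum
    linarith
  · right
    push Not at hneg
    have hb : ∃ b, 1 ≤ ρ (Fin.natAdd k b) ∧ γ w₂ ∈ range (ι b) := by
      rcases hmem with h1 | h1
      · obtain ⟨l, hl, hl'⟩ := mem_iUnion₂.1 h1
        exact absurd (hneg l (hinG l hl')) (not_le.2 hl)
      · obtain ⟨b, hb, hb'⟩ := mem_iUnion₂.1 h1
        exact ⟨b, hb, hb'⟩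
    obtain ⟨b, hb1, hbm⟩ := hb
    have hgb := (hinH b).1 hbm
    have hb2 := hA2 b hgb
    have hb3 : ρ (Fin.natAdd k b) = 1 := le_antisymm hb2 hb1
    have hs0 : ∑ b' : Fin s, ρ (Fin.natAdd k b') * (g b' : ℝ) = ρ (Fin.natAdd k b) * g b := by
      refine Finset.sum_eq_single b (fun b' _ hbb => ?_) fun h => absurd (Finset.mem_univ b) h
      have h2 : g b' = 0 := by
        by_contra h3
        exact disjoint_left.1 (hdis hbb) ((hinH b').2 (by omega)) hbm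
      rw [h2, Nat.cast_zero, mul_zero]
    rw [hs0, hb3, one_mul] at hineq
    have hsum : 0 ≤ ∑ l, a l * (ν l : ℝ) := by
      refine Finset.sum_nonneg fun l _ => ?_
      rcases Nat.eq_zero_or_pos (ν l) with h1 | h1
      · rw [h1, Nat.cast_zero, mul_zero]
      · exact mul_nonneg (hneg l h1) (Nat.cast_nonneg _)
    have hgJ : g b ≤ J := RR.order_le_jac (hbd b) (fun μ => (hM _).isOpen μ) (hdn b) hg.zero hcy.1
      hcy.2.1 hcy.2.2 (by
        filter_upwards [hg.isOpen.mem_nhds hg.mem] with w hw hw0 using hg.notMem hSO hw hw0)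
      (hg.memN w₂ hg.mem _) (hΦg b) (hΦg0 b) hΦ1 hΦ2 (hgg b) hΦ3
    have hJg : g b = J := by
      by_contra hcon
      have h2 : g b + 1 ≤ J := by omega
      have h3 : (g b : ℝ) + 1 ≤ J := by exact_mod_cast h2
      linarith
    refine ⟨b, hb3, hJg, ?_⟩
    rw [hJg] at hineq
    linarith

/-- **(P)** -/
theorem stP : T3.StP := by
  intro Y _ _ _ _ _ χ k s M m ρ H _ _ _ _ _ _ ι sg W X Z r v₀ p P G f f' A L c σ n t h a ha j hBP
    x₀ hx₀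
  have hsum : ∑ e : Fin k, ρ (Fin.castAdd s e) * m (Fin.castAdd s e) = 1 := by
    have h1 := h.sum
    rw [Fin.sum_univ_add] at h1
    simpa only [h.m0, Nat.cast_zero, mul_zero, Finset.sum_const_zero, add_zero] using h1
  have hk : 1 ≤ k := by
    rcases Nat.eq_zero_or_pos k with rfl | h1
    · simp at hsum
    · exact h1
  have hks : 1 ≤ k + s := by omega
  obtain rfl : a = fun l => ∑ e, ρ e * n e l / c 0 e := funext ha
  have hn' : ∀ l, 0 ≤ ∑ e, ρ e * n e l / c 0 e ∨ G l ⊆ (univ : Set Y) := fun l =>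
    Or.inr (subset_univ _)
  obtain ⟨O, v, P', Q', T, hT⟩ := H884.G.exists_twSeqG H884.stL0 hks h.lb h.res h.c1 h.cmp
    h.corr hn' h.flip
  obtain ⟨pp, qq, s', a', hf, d, b', -, -, -, -, -, -, -, -, -⟩ := hT.step j
  have hTw := hT.tw j
  have hch := exists_chainK H884.stL0 hks (h.flip 0).flip.normal h.lb h.res h.cmp hT j
  have hsub := hT.sub_compl j
  have hdn : ∀ i, range (ι i) ⊆ closure (range (ι i) ∩ O (j + 1)) := by
    intro i
    have hne : Nonempty Y := ⟨ι i (Classical.arbitrary (H i))⟩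
    exact (RR.hyp_dense h.res.emb h.res.hyp h.res.closed (RR.isHyp_of_bd (h.lb _) (h.bd i))
      (isPreconnected_range (h.bd i).sub.cont)
      (fun l hl => h.ne i (hl.trans (subset_iUnion G l)))
      (hTw.tw ⟨0, by omega⟩).emb.isOpen (hTw.tw ⟨0, by omega⟩).thin).2.1
  have hCr : ∀ y x, T3.Cor (⋃ l, G l) (fun y => p (v₀ y)) f f' (j + 1) y x ↔
      y ∈ O (j + 1) ∧ v (j + 1) y = x := fun y x => cor_iff' hT (j + 1) y x
  obtain ⟨ξ, R, W₀, w₀, γa, cha, hR, hinj, hopen, hhol, hξS, hW₀, hw₀, hw₀0, hx0, hdat⟩ := hx₀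
  have hξ : H19.LocIso (X (j + 1)) ξ (ball 0 R) := ⟨isOpen_ball, hinj, hopen, hhol⟩
  obtain ⟨W₁, w₂, γ, ch, μ, i, x, J, κ, g, ζ, ν, hWW, hg, hagr, hJ1, hlt, hx, hκ, hsg, hGl⟩ :=
    exists_germP (H19.stTD_of_core TD.stCore) H884.stDis hks h.lb hTw.tw1 hch hsub hCr
      (β := Fin.natAdd k) (sg := sg) (fun i => (h.bd i).sec) (fun i a y hy => bd_freq (h.bd i) a y hy)
      hξ hξS hW₀ hw₀ hw₀0 fun w hw => ⟨(hdat w hw).1, (hdat w hw).2.1, (hdat w hw).2.2.1,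
        (hdat w hw).2.2.2.1, (hdat w hw).2.2.2.2.1, fun h0 => ((hdat w hw).2.2.2.2.2 h0).2⟩
  choose Φg hΦg hΦg0 hgg using hsg
  choose hζ Φ hΦ hΦ0 hζΦ using hGl
  obtain ⟨ΦJ, hΦ1, hΦ2, hΦ3⟩ := hg.jac
  have hWB : ∀ w ∈ W₁, bl w ∈ ball (0 : Cm 4) R := fun w hw => (hdat w (hWW hw)).1
  have hQ1 : ∀ e, 1 ≤ Q' (j + 1) e := fun e => (hTw.tw e).hQ
  have hQ0 : ∀ e, (0 : ℝ) < Q' (j + 1) e := fun e => by exact_mod_cast hQ1 e
  -- the multiplicities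
  have hσ : ∀ i, IsSecx (X (j + 1)) univ (L (j + 1) (Fin.natAdd k i)) (σ (j + 1) i) := fun ν =>
    (h.flip (j + 1)).sec ν
  have hmult : ∀ w, GermV (O (j + 1)) (v (j + 1)) (T (j + 1)) (f' j ⁻¹' Amin (f j)) W₁ w
      (fun w => ξ (bl w)) γ ch μ i x J → ∀ b : Fin s, AnalyticAt ℂ (Φg b) w → Φg b w ≠ 0 →
      (∀ᶠ w' in 𝓝 w, sg b (μ (Fin.natAdd k b)) (γ w') = w' 0 ^ g b * Φg b w') →
      0 ≤ g b + κ (Fin.natAdd k b) ∧
      (σ (j + 1) b (i (Fin.natAdd k b)) (ξ (bl w)) = 0 → 1 ≤ g b + κ (Fin.natAdd k b)) := by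
    intro w hgw b hb1 hb2 hb3
    have h1 := hgw.mult hsub (e := Fin.natAdd k b) (P := P' (j + 1) (Fin.natAdd k b)) (hQ1 _)
      (κ := κ (Fin.natAdd k b)) (by rw [hx, h.m0 b]; push_cast; ring) (sg := sg b)
      (η := fun a x => σ (j + 1) b a x ^ P' (j + 1) (Fin.natAdd k b))
      ⟨fun a x hx ha => hol_pow ((hσ b).holo a x hx ha) _,
        fun a a' x hx ha ha' => by
          show σ (j + 1) b a x ^ _ = (L (j + 1) (Fin.natAdd k b)).g a a' x ^ _ *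
            σ (j + 1) b a' x ^ _
          rw [(hσ b).change a a' x hx ha ha', mul_pow]⟩
      (fun y hy a b' ha hb' => by
        have h1 := hT.sec (j + 1) b y a b'.1 b'.2 hy ha hb'.1 hb'.2
        rw [mul_comm]
        exact h1) hb1 hb2 hb3
    refine ⟨h1.1, fun h0 => h1.2 ?_⟩
    show σ (j + 1) b (i (Fin.natAdd k b)) (ξ (bl w)) ^ P' (j + 1) (Fin.natAdd k b) = 0
    rw [h0, zero_pow (Nat.one_le_iff_ne_zero.1 (hTw.tw (Fin.natAdd k b)).hP)]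
  have hN0 : ∀ b : Fin s, (0 : ℝ) ≤ g b + κ (Fin.natAdd k b) := fun b => by
    exact_mod_cast (hmult w₂ hg b (hΦg b) (hΦg0 b) (hgg b)).1
  set Nn : ℝ := ∑ b : Fin s, ρ (Fin.natAdd k b) * (g b + κ (Fin.natAdd k b)) with hNn
  have hNn0 : 0 ≤ Nn := Finset.sum_nonneg fun b _ => mul_nonneg (h.rho _).le (hN0 b)
  have hκ0 : ∀ e : Fin k, (0 : ℝ) ≤ κ (Fin.castAdd s e) := fun e => by
    exact_mod_cast hκ _ χ h.kahler (h.nef e)
  have hval : ∑ e, ρ e / Q' (j + 1) e * x e ≤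
      1 - J + ∑ b : Fin s, ρ (Fin.natAdd k b) * g b - Nn := by
    have h2 : ∀ e, ρ e / Q' (j + 1) e * (x e : ℝ) = ρ e * m e * (1 - J) - ρ e * κ e := by
      intro e
      rw [hx e]
      have := hQ0 e
      push_cast
      field_simp
    simp only [h2]
    rw [Finset.sum_sub_distrib, ← Finset.sum_mul, h.sum, one_mul,
      Fin.sum_univ_add (fun e => ρ e * (κ e : ℝ)), hNn]
    simp only [mul_add]
    rw [Finset.sum_add_distrib]
    have h3 : 0 ≤ ∑ e : Fin k, ρ (Fin.castAdd s e) * (κ (Fin.castAdd s e) : ℝ) :=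
      Finset.sum_nonneg fun e _ => mul_nonneg (h.rho _).le (hκ0 e)
    linarith
  have hineq := hlt.trans_le hval
  -- the good points near `w₂`
  have hev : ∀ᶠ w in 𝓝 w₂, w ∈ W₁ ∧ (w 0 = 0 → GermV (O (j + 1)) (v (j + 1)) (T (j + 1))
      (f' j ⁻¹' Amin (f j)) W₁ w (fun w => ξ (bl w)) γ ch μ i x J) ∧
      (AnalyticAt ℂ ΦJ w ∧ ΦJ w ≠ 0 ∧
        ∀ᶠ w' in 𝓝 w, (fderiv ℂ (fun w => ch (γ w)) w').det = w' 0 ^ J * ΦJ w') ∧
      (∀ b, AnalyticAt ℂ (Φg b) w ∧ Φg b w ≠ 0 ∧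
        ∀ᶠ w' in 𝓝 w, sg b (μ (Fin.natAdd k b)) (γ w') = w' 0 ^ g b * Φg b w') ∧
      ∀ l, IsLEq (G l) (γ w) (ζ l) ∧ AnalyticAt ℂ (Φ l) w ∧ Φ l w ≠ 0 ∧
        ∀ᶠ w' in 𝓝 w, ζ l (γ w') = w' 0 ^ ν l * Φ l w' := by
    refine (hg.isOpen.eventually_mem hg.mem).and ((germV_move hg).and (Filter.Eventually.and ?_
      (Filter.Eventually.and ?_ ?_)))
    · exact hΦ1.eventually_analyticAt.and ((hΦ1.continuousAt.eventually_ne hΦ2).and
        hΦ3.eventually_nhds)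
    · rw [eventually_all]
      exact fun b => (hΦg b).eventually_analyticAt.and (((hΦg b).continuousAt.eventually_ne
        (hΦg0 b)).and (hgg b).eventually_nhds)
    · rw [eventually_all]
      exact fun l => ((hg.lift w₂ hg.mem).1.eventually (isLEq_eventually (hζ l))).and
        ((hΦ l).eventually_analyticAt.and (((hΦ l).continuousAt.eventually_ne (hΦ0 l)).and
          (hζΦ l).eventually_nhds))
  obtain ⟨W₂, hW₂s, hW₂, hw₂W₂⟩ := _root_.mem_nhds_iff.1 hev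
  have hinG : ∀ w ∈ W₂, w 0 = 0 → ∀ l, γ w ∈ G l ↔ 1 ≤ ν l := by
    intro w hw hw0 l
    obtain ⟨-, -, -, -, h5⟩ := hW₂s hw
    obtain ⟨h6, h7, h8, h9⟩ := h5 l
    have h1 := h6.1.self_of_nhds
    rw [h9.self_of_nhds, hw0] at h1
    rw [← h1]
    constructor
    · intro h2
      by_contra h3
      have h4 : ν l = 0 := by omega
      rw [h4, pow_zero, one_mul] at h2
      exact h8 h2
    · intro h2
      rw [zero_pow (by omega), zero_mul]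
  have hinH : ∀ w ∈ W₂, w 0 = 0 → ∀ b, γ w ∈ range (ι b) ↔ 1 ≤ g b := by
    intro w hw hw0 b
    obtain ⟨h2, -, -, h4, -⟩ := hW₂s hw
    obtain ⟨h6, h7, h8⟩ := h4 b
    have h1 := (h.bd b).zero _ _ (hg.memN w h2 (Fin.natAdd k b))
    rw [h8.self_of_nhds, hw0] at h1
    rw [← h1]
    constructor
    · intro h2
      by_contra h3
      have h4 : g b = 0 := by omega
      rw [h4, pow_zero, one_mul] at h2
      exact h7 h2
    · intro h2
      rw [zero_pow (by omega), zero_mul]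
  have hθ : ∀ w ∈ W₂, w 0 = 0 → ∑ b : Fin s, (T3.zer (L (j + 1) (Fin.natAdd k b))
      (σ (j + 1) b)).indicator (fun _ => ρ (Fin.natAdd k b)) (ξ (bl w)) ≤ Nn := by
    intro w hw hw0
    obtain ⟨h2, h3, -, h4, -⟩ := hW₂s hw
    refine Finset.sum_le_sum fun b _ => ?_
    obtain ⟨h6, h7, h8⟩ := h4 b
    by_cases hz : ξ (bl w) ∈ T3.zer (L (j + 1) (Fin.natAdd k b)) (σ (j + 1) b)
    · rw [Set.indicator_of_mem hz]
      have h9 := (hmult w (h3 hw0) b h6 h7 h8).2 (hz _ (hg.memU w h2 _))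
      have h10 : (1 : ℝ) ≤ g b + κ (Fin.natAdd k b) := by exact_mod_cast h9
      have h11 := h.rho (Fin.natAdd k b)
      nlinarith
    · rw [Set.indicator_of_notMem hz]
      exact mul_nonneg (h.rho _).le (hN0 b)
  have hmemB : ∀ w ∈ W₂, w 0 = 0 → γ w ∈ T3.bad ι G
      {l | (∑ e, ρ e * n e l / c 0 e) < 0} {i | 1 ≤ ρ (Fin.natAdd k i)} := by
    intro w hw hw0
    have h2 := (hW₂s hw).1
    rw [hagr w h2]
    exact ((hdat w (hWW h2)).2.2.2.2.2 hw0).1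
  -- the numerical condition holds at the points near `w₂`
  have hfin : ∀ w ∈ W₂, w 0 = 0 → T3.BadPN (f' j ⁻¹' Amin (f j))
      (T3.Cor (⋃ l, G l) (fun y => p (v₀ y)) f f' (j + 1))
      (T3.bad ι G {l | (∑ e, ρ e * n e l / c 0 e) < -1} {i | 1 < ρ (Fin.natAdd k i)} ∪
        T3.cross ι G {l | -1 ≤ ∑ e, ρ e * n e l / c 0 e ∧ ∑ e, ρ e * n e l / c 0 e < 0})
      ({q | ∃ l, -1 ≤ ∑ e, ρ e * n e l / c 0 e ∧ ∑ e, ρ e * n e l / c 0 e < 0 ∧
          q = (G l, -∑ e, ρ e * n e l / c 0 e)} ∪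
        {q | ∃ i, ρ (Fin.natAdd k i) = 1 ∧ q = (range (ι i), 1)})
      (fun x => ∑ i : Fin s, (T3.zer (L (j + 1) (Fin.natAdd k i)) (σ (j + 1) i)).indicator
        (fun _ => ρ (Fin.natAdd k i)) x) (ξ (bl w)) := by
    intro w hw hw0
    refine ⟨ξ, R, W₂, w, γ, ch, hR, hinj, hopen, hhol, hξS, hW₂, hw, hw0, rfl, fun w' hw' => ?_, ?_⟩
    · obtain ⟨h2, h3, h4, -, -⟩ := hW₂s hw'
      obtain ⟨m1, m2, m3⟩ := hg.lift w' h2
      refine ⟨hWB w' h2, fun y hy => ?_, m1, m2, m3, fun h0 => ?_⟩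
      · rw [hagr w' h2]
        exact (hdat w' (hWW h2)).2.1 y hy
      · rw [h4.2.2.self_of_nhds, h0, zero_pow (by omega), zero_mul]
    by_cases hA : (∃ l, 1 ≤ ν l ∧ ∑ e, ρ e * n e l / c 0 e < -1) ∨
        (∃ b : Fin s, 1 ≤ g b ∧ 1 < ρ (Fin.natAdd k b)) ∨
        (∃ l, 1 ≤ ν l ∧ -1 ≤ ∑ e, ρ e * n e l / c 0 e ∧ ∑ e, ρ e * n e l / c 0 e < 0 ∧
          ((∃ l', l' ≠ l ∧ 1 ≤ ν l' ∧ -1 ≤ ∑ e, ρ e * n e l' / c 0 e ∧
            ∑ e, ρ e * n e l' / c 0 e < 0) ∨ ∃ b, 1 ≤ g b))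
    · left
      intro w' hw' hw'0
      rcases hA with ⟨l, h1, h2⟩ | ⟨b, h1, h2⟩ | ⟨l, h1, h2, h3, h4⟩
      · exact Or.inl (Or.inl (mem_iUnion₂.2 ⟨l, h2, (hinG w' hw' hw'0 l).2 h1⟩))
      · exact Or.inl (Or.inr (mem_iUnion₂.2 ⟨b, h2, (hinH w' hw' hw'0 b).2 h1⟩))
      · refine Or.inr ⟨l, ⟨h2, h3⟩, (hinG w' hw' hw'0 l).2 h1, ?_⟩
        rcases h4 with ⟨l', h5, h6, h7, h8⟩ | ⟨b, h5⟩
        · exact Or.inl ⟨l', ⟨h7, h8⟩, h5, (hinG w' hw' hw'0 l').2 h6⟩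
        · exact Or.inr ⟨b, (hinH w' hw' hw'0 b).2 h5⟩
    · right
      push Not at hA
      obtain ⟨hA1, hA2, hA3⟩ := hA
      obtain ⟨n1, n2, n3, n4, n5⟩ := hW₂s hw
      have hnum := num_germ h.lb h.bd h.disj (a := fun l => ∑ e, ρ e * n e l / c 0 e) hsub hdn hξ
        hWB (n2 hw0) hJ1 (fun b => (n4 b).1) (fun b => (n4 b).2.1) (fun b => (n4 b).2.2)
        (fun l => (n5 l).1) (fun l => (n5 l).2.1) (fun l => (n5 l).2.2.1) (fun l => (n5 l).2.2.2)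
        hNn0 hineq (hmemB w hw hw0) hA1 hA2 (fun l h1 h2 l' h3 h4 => by
          by_contra h5
          have h6 := (hA3 l h1 (hA1 l h1) h2).1 l' h3 (by omega) (hA1 l' (by omega))
          linarith) (fun l h1 h2 b => by
          by_contra h5
          have h6 := (hA3 l h1 (hA1 l h1) h2).2 b
          omega)
      have hθw := hθ w hw hw0
      rcases hnum with ⟨l, h1, h2, h3, h4⟩ | ⟨b, h1, h3, h4⟩
      · refine ⟨(G l, -∑ e, ρ e * n e l / c 0 e), Or.inl ⟨l, h1, h2, rfl⟩, J, ζ l, hJ1,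
          fun w' hw' hw'0 => (hinG w' hw' hw'0 l).2 (by omega), (n5 l).1,
          ⟨Φ l, (n5 l).2.1, (n5 l).2.2.1, ?_⟩, ⟨ΦJ, n3.1, n3.2.1, n3.2.2⟩, ?_⟩
        · rw [← h3]; exact (n5 l).2.2.2
        · exact h4.trans_le (by linarith)
      · refine ⟨(range (ι b), 1), Or.inr ⟨b, h1, rfl⟩, J, sg b (μ (Fin.natAdd k b)), hJ1,
          fun w' hw' hw'0 => (hinH w' hw' hw'0 b).2 (by omega), ?_,
          ⟨Φg b, (n4 b).1, (n4 b).2.1, ?_⟩, ⟨ΦJ, n3.1, n3.2.1, n3.2.2⟩, ?_⟩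
        · have hU := hg.memN w n1 (Fin.natAdd k b)
          refine ⟨?_, fun e he => ⟨((h.bd b).sec.holo _ e _ he hU).analyticAt,
            fun h0 => (h.bd b).mult _ _ hU h0 e he⟩⟩
          filter_upwards [((h.lb _).isOpen _).mem_nhds hU] with y' hy'
          exact (h.bd b).zero _ _ hy'
        · rw [← h3]; exact (n4 b).2.2
        · exact h4.trans_le (by linarith)
  -- contradiction
  let ins : Cm 4 → Cm 4 := fun z => ![z 0, w₂ 1, z 2, z 3]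
  have hins : Continuous ins := by
    refine continuous_pi fun i => ?_
    fin_cases i
    · exact continuous_apply 0
    · exact continuous_const
    · exact continuous_apply 2
    · exact continuous_apply 3
  have hblins : ∀ z : Cm 4, z 0 = 0 → z 1 = 0 → bl (ins z) = z := by
    intro z h0 h1
    ext i
    fin_cases i
    · rfl
    · show z 0 * w₂ 1 = z 1
      rw [h0, h1, zero_mul]
    · rfl
    · rfl
  have hw2' : ins (bl w₂) = w₂ := by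
    ext i
    fin_cases i
    · rfl
    · rfl
    · rfl
    · rfl
  have hb0 : (bl w₂) 0 = 0 := hg.zero
  have hb1 : (bl w₂) 1 = 0 := by
    show w₂ 0 * w₂ 1 = 0
    rw [hg.zero, zero_mul]
  obtain ⟨z, hz, hz0, hz1, hzB⟩ := H884.N.exists_notMem hξ hBP
    (U := ball (0 : Cm 4) R ∩ ins ⁻¹' W₂)
    (isOpen_ball.inter (hW₂.preimage hins)) inter_subset_left
    (w := bl w₂) ⟨hWB w₂ hg.mem, by show ins (bl w₂) ∈ W₂; rw [hw2']; exact hw₂W₂⟩ hb0 hb1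
  refine hzB ?_
  have h1 := hfin (ins z) hz.2 hz0
  rw [hblins z hz0 hz1] at h1
  exact h1

end Vale.Agent.P277.H762.P
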