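import Vale.Agent.P277.H762.P.AntiEff
import Vale.Agent.P277.H762.P.FinP

/-!
# P277, (AE): if `- D ∼_ℝ E ≥ 0`, the flipped curves are contained in the support of `E`
-/

open scoped Manifold ContDiff Topology
open Vale.Agent.P272.K Vale.Agent.P285.H281.FD Vale.Agent.P267.H175 Set Filter Metric

noncomputable section

namespace Vale.Agent.P277.H762.P

open Vale.Agent.P277 Vale.Agent.P277.T2 Vale.Agent.P277.T3 Vale.Agent.P277.H615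
open Vale.Agent.P277.H29.CY

/-- one flip -/
theorem anti_eff_flip {k s : ℕ} {X Z X' : CSp} {f : X.pt → Z.pt} {f' : X'.pt → Z.pt} {A : Set Z.pt}
    {L : Fin (k + s) → Bd X.pt} {L' : Fin (k + s) → Bd X'.pt} {c c' : Fin (k + s) → ℕ}
    {ρ τ : Fin (k + s) → ℝ}
    (h : IsFlipR X Z X' f f' A L L' c c' ρ) (hc : ∀ e, 1 ≤ c e) (hc' : ∀ e, 1 ≤ c' e)
    {ε : Fin s → ℝ} (hε : ∀ i, 0 ≤ ε i)
    (hτ1 : ∀ e : Fin k, τ (Fin.castAdd s e) = ρ (Fin.castAdd s e))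
    (hτ2 : ∀ i : Fin s, τ (Fin.natAdd k i) = ρ (Fin.natAdd k i) + ε i)
    (hτ : τ ∈ RTg X' L' c')
    {σ : ∀ i : Fin s, (L' (Fin.natAdd k i)).ι → X'.pt → ℂ}
    (hσ : ∀ i, IsSecx X' univ (L' (Fin.natAdd k i)) (σ i)) {x : X'.pt} (hx : f' x ∈ Amin f) :
    ∃ i, 0 < ε i ∧ x ∈ zer (L' (Fin.natAdd k i)) (σ i) := by
  obtain ⟨pp, qq, s', d, a, hd, hcpq, hf, hda⟩ := exists_flipD h hc
  have hA : Amin f = Amin f' := (H615.stD0 _ _ _ _ _ _ _ _ (hf.flip none)).2.1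
  rw [hA] at hx
  obtain ⟨x₁, x₂, h1, h2, h3⟩ := hx
  obtain ⟨x', hne, hxx⟩ : ∃ x', x' ≠ x ∧ f' x' = f' x := by
    by_cases h4 : x₁ = x
    · exact ⟨x₂, fun h5 => h3 (by rw [h4, h5]), h2⟩
    · exact ⟨x₁, h4, h1⟩
  exact anti_eff h.normal' h.normalZ h.small' h.lb' hc' h.ample' hε hτ1 hτ2 hτ hσ hne hxx

/-- `∼_ℝ 0` on all `X j` -/
theorem rtg_seq {K : ℕ} {X Z : ℕ → CSp} {f : ∀ j, (X j).pt → (Z j).pt}
    {f' : ∀ j, (X (j + 1)).pt → (Z j).pt} {A : ∀ j, Set (Z j).pt} {L : ∀ j, Fin K → Bd (X j).pt}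
    {c : ℕ → Fin K → ℕ} {ρ τ : Fin K → ℝ}
    (hflip : ∀ j, IsFlipR (X j) (Z j) (X (j + 1)) (f j) (f' j) (A j) (L j) (L (j + 1)) (c j)
      (c (j + 1)) ρ) (hτ : IsRTriv (X 0) (L 0) (c 0) τ) (j : ℕ) : τ ∈ RTg (X j) (L j) (c j) := by
  induction j with
  | zero => exact IsRTriv.mem hτ
  | succ j ih => exact RTg_trans (hflip j) ih

/-- (AE) -/
theorem ae_seq {k s : ℕ} {X Z : ℕ → CSp} {f : ∀ j, (X j).pt → (Z j).pt}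
    {f' : ∀ j, (X (j + 1)).pt → (Z j).pt} {A : ∀ j, Set (Z j).pt}
    {L : ∀ j, Fin (k + s) → Bd (X j).pt} {c : ℕ → Fin (k + s) → ℕ} {ρ τ : Fin (k + s) → ℝ}
    {σ : ∀ j, ∀ i : Fin s, (L j (Fin.natAdd k i)).ι → (X j).pt → ℂ} (hc : ∀ j e, 1 ≤ c j e)
    (hflip : ∀ j, IsFlipR (X j) (Z j) (X (j + 1)) (f j) (f' j) (A j) (L j) (L (j + 1)) (c j)
      (c (j + 1)) ρ)
    (hσ : ∀ j i, IsSecx (X j) univ (L j (Fin.natAdd k i)) (σ j i))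
    {ε : Fin s → ℝ} (hε : ∀ i, 0 ≤ ε i)
    (hτ1 : ∀ e : Fin k, τ (Fin.castAdd s e) = ρ (Fin.castAdd s e))
    (hτ2 : ∀ i : Fin s, τ (Fin.natAdd k i) = ρ (Fin.natAdd k i) + ε i)
    (hτ : IsRTriv (X 0) (L 0) (c 0) τ) (j : ℕ) {x : (X (j + 1)).pt} (hx : f' j x ∈ Amin (f j)) :
    ∃ i, 0 < ε i ∧ x ∈ zer (L (j + 1) (Fin.natAdd k i)) (σ (j + 1) i) :=
  anti_eff_flip (hflip j) (hc j) (hc (j + 1)) hε hτ1 hτ2 (rtg_seq hflip hτ (j + 1))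
    (hσ (j + 1)) hx

end Vale.Agent.P277.H762.P
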