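import Vale.Agent.P277.H762.P.FinP
import Vale.Agent.P277.StmtsP2

/-!
# P277, (P), localized: the numerical conditions for some of the `G l`, and in a set `C`
-/

open scoped Manifold ContDiff Topology
open Vale.Agent.P272.K Vale.Agent.P285.H281.FD Vale.Agent.P267.H175 Set Filter Metric

noncomputable section

namespace Vale.Agent.P277.H762.P

open Vale.Agent.P277 Vale.Agent.P277.T2 Vale.Agent.P277.H335 Vale.Agent.P277.H615
open Vale.Agent.P277.H335.KK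

/-- **(P), localized** -/
theorem stPC (Y : Type) [TopologicalSpace Y] [T2Space Y] [CompactSpace Y] [ChartedSpace (Cm 4) Y]
    [IsManifold 𝓘(ℂ, Cm 4) ω Y] (χ : Chart 4 Y → Cm 4 → Matrix (Fin 4) (Fin 4) ℂ) (k s : ℕ)
    (M : Fin (k + s) → Bd Y) (m : Fin (k + s) → ℕ) (ρ : Fin (k + s) → ℝ) (H : Fin s → Type)
    [∀ i, TopologicalSpace (H i)] [∀ i, T2Space (H i)] [∀ i, CompactSpace (H i)]
    [∀ i, ConnectedSpace (H i)] [∀ i, ChartedSpace (Cm 3) (H i)]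
    [∀ i, IsManifold 𝓘(ℂ, Cm 3) ω (H i)] (ι : ∀ i, H i → Y)
    (sg : ∀ i : Fin s, (M (Fin.natAdd k i)).ι → Y → ℂ) (W : CSp) (X Z : ℕ → CSp) (r : ℕ)
    (v₀ : Y → W.pt) (p : W.pt → (X 0).pt) (P : Bd W.pt) (G : Fin r → Set Y)
    (f : ∀ j, (X j).pt → (Z j).pt) (f' : ∀ j, (X (j + 1)).pt → (Z j).pt)
    (A : ∀ j, Set (Z j).pt) (L : ∀ j, Fin (k + s) → Bd (X j).pt) (c : ℕ → Fin (k + s) → ℕ)
    (σ : ∀ j, ∀ i : Fin s, (L j (Fin.natAdd k i)).ι → (X j).pt → ℂ)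
    (n : Fin (k + s) → Fin r → ℤ) (t : ∀ e, (L 0 e).ι →
      ((((Bd.can 4 Y).pow (m e)).mul (M e)).pow (c 0 e)).ι → Y → ℂ)
    (h : T3.IsPG χ M m ρ ι sg v₀ p P G f f' A L c σ n t)
    (a : Fin r → ℝ) (ha : ∀ l, a l = ∑ e, ρ e * n e l / c 0 e) (j : ℕ)
    (C : Set Y) (Λ K : Set (Fin r)) (hΛ : ∀ l ∈ Λ, a l < 0) (hK : ∀ l ∈ K, a l < 0)
    (hBP : DimLe (X (j + 1)) 1 {x | T3.BadPC (f' j ⁻¹' Amin (f j))
      (T3.Cor (⋃ l, G l) (fun y => p (v₀ y)) f f' (j + 1)) C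
      (T3.bad ι G {l | a l < -1} {i | 1 < ρ (Fin.natAdd k i)} ∪
        T3.cross ι G {l | -1 ≤ a l ∧ a l < 0})
      ({q | ∃ l ∈ Λ, -1 ≤ a l ∧ q = (G l, -a l)} ∪
        {q | ∃ i, ρ (Fin.natAdd k i) = 1 ∧ q = (range (ι i), 1)})
      (fun x => ∑ i : Fin s, (T3.zer (L (j + 1) (Fin.natAdd k i)) (σ (j + 1) i)).indicator
        (fun _ => ρ (Fin.natAdd k i)) x) x}) (x₀ : (X (j + 1)).pt) :
    ¬ T3.BadPt (f' j ⁻¹' Amin (f j)) (T3.Cor (⋃ l, G l) (fun y => p (v₀ y)) f f' (j + 1))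
      ((T3.bad ι G Λ {i | 1 ≤ ρ (Fin.natAdd k i)} ∪ T3.cross ι G K) ∩ C) x₀ := by
  intro hx₀
  have hsum : ∑ e : Fin k, ρ (Fin.castAdd s e) * m (Fin.castAdd s e) = 1 := by
    have h1 := h.sum
    rw [Fin.sum_univ_add] at h1
    simpa only [h.m0, Nat.cast_zero, mul_zero, Finset.sum_const_zero, add_zero] using h1
  have hk : 1 ≤ k := by
    rcases Nat.eq_zero_or_pos k with rfl | h1
    · simp at hsum
    · exact h1
  have hks : 1 ≤ k + s := by omega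
  obtain rfl : a = fun l => ∑ e, ρ e * n e l / c 0 e := funext ha
  simp only at hΛ hK
  have hn' : ∀ l, 0 ≤ ∑ e, ρ e * n e l / c 0 e ∨ G l ⊆ (univ : Set Y) := fun l =>
    Or.inr (subset_univ _)
  obtain ⟨O, v, P', Q', T, hT⟩ := H884.G.exists_twSeqG H884.stL0 hks h.lb h.res h.c1 h.cmp
    h.corr hn' h.flip
  obtain ⟨pp, qq, s', a', hf, d, b', -, -, -, -, -, -, -, -, -⟩ := hT.step j
  have hTw := hT.tw j
  have hch := exists_chainK H884.stL0 hks (h.flip 0).flip.normal h.lb h.res h.cmp hT j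
  have hsub := hT.sub_compl j
  have hdn : ∀ i, range (ι i) ⊆ closure (range (ι i) ∩ O (j + 1)) := by
    intro i
    have hne : Nonempty Y := ⟨ι i (Classical.arbitrary (H i))⟩
    exact (RR.hyp_dense h.res.emb h.res.hyp h.res.closed (RR.isHyp_of_bd (h.lb _) (h.bd i))
      (isPreconnected_range (h.bd i).sub.cont)
      (fun l hl => h.ne i (hl.trans (subset_iUnion G l)))
      (hTw.tw ⟨0, by omega⟩).emb.isOpen (hTw.tw ⟨0, by omega⟩).thin).2.1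
  have hCr : ∀ y x, T3.Cor (⋃ l, G l) (fun y => p (v₀ y)) f f' (j + 1) y x ↔
      y ∈ O (j + 1) ∧ v (j + 1) y = x := fun y x => cor_iff' hT (j + 1) y x
  obtain ⟨ξ, R, W₀, w₀, γa, cha, hR, hinj, hopen, hhol, hξS, hW₀, hw₀, hw₀0, hx0, hdat⟩ := hx₀
  have hξ : H19.LocIso (X (j + 1)) ξ (ball 0 R) := ⟨isOpen_ball, hinj, hopen, hhol⟩
  obtain ⟨W₁, w₂, γ, ch, μ, i, x, J, κ, g, ζ, ν, hWW, hg, hagr, hJ1, hlt, hx, hκ, hsg, hGl⟩ :=
    exists_germP (H19.stTD_of_core TD.stCore) H884.stDis hks h.lb hTw.tw1 hch hsub hCr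
      (β := Fin.natAdd k) (sg := sg) (fun i => (h.bd i).sec) (fun i a y hy => bd_freq (h.bd i) a y hy)
      hξ hξS hW₀ hw₀ hw₀0 fun w hw => ⟨(hdat w hw).1, (hdat w hw).2.1, (hdat w hw).2.2.1,
        (hdat w hw).2.2.2.1, (hdat w hw).2.2.2.2.1, fun h0 => ((hdat w hw).2.2.2.2.2 h0).2⟩
  choose Φg hΦg hΦg0 hgg using hsg
  choose hζ Φ hΦ hΦ0 hζΦ using hGl
  obtain ⟨ΦJ, hΦ1, hΦ2, hΦ3⟩ := hg.jac
  have hWB : ∀ w ∈ W₁, bl w ∈ ball (0 : Cm 4) R := fun w hw => (hdat w (hWW hw)).1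
  have hQ1 : ∀ e, 1 ≤ Q' (j + 1) e := fun e => (hTw.tw e).hQ
  have hQ0 : ∀ e, (0 : ℝ) < Q' (j + 1) e := fun e => by exact_mod_cast hQ1 e
  -- the multiplicities
  have hσ : ∀ i, IsSecx (X (j + 1)) univ (L (j + 1) (Fin.natAdd k i)) (σ (j + 1) i) := fun ν =>
    (h.flip (j + 1)).sec ν
  have hmult : ∀ w, GermV (O (j + 1)) (v (j + 1)) (T (j + 1)) (f' j ⁻¹' Amin (f j)) W₁ w
      (fun w => ξ (bl w)) γ ch μ i x J → ∀ b : Fin s, AnalyticAt ℂ (Φg b) w → Φg b w ≠ 0 →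
      (∀ᶠ w' in 𝓝 w, sg b (μ (Fin.natAdd k b)) (γ w') = w' 0 ^ g b * Φg b w') →
      0 ≤ g b + κ (Fin.natAdd k b) ∧
      (σ (j + 1) b (i (Fin.natAdd k b)) (ξ (bl w)) = 0 → 1 ≤ g b + κ (Fin.natAdd k b)) := by
    intro w hgw b hb1 hb2 hb3
    have h1 := hgw.mult hsub (e := Fin.natAdd k b) (P := P' (j + 1) (Fin.natAdd k b)) (hQ1 _)
      (κ := κ (Fin.natAdd k b)) (by rw [hx, h.m0 b]; push_cast; ring) (sg := sg b)
      (η := fun a x => σ (j + 1) b a x ^ P' (j + 1) (Fin.natAdd k b))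
      ⟨fun a x hx ha => hol_pow ((hσ b).holo a x hx ha) _,
        fun a a' x hx ha ha' => by
          show σ (j + 1) b a x ^ _ = (L (j + 1) (Fin.natAdd k b)).g a a' x ^ _ *
            σ (j + 1) b a' x ^ _
          rw [(hσ b).change a a' x hx ha ha', mul_pow]⟩
      (fun y hy a b' ha hb' => by
        have h1 := hT.sec (j + 1) b y a b'.1 b'.2 hy ha hb'.1 hb'.2
        rw [mul_comm]
        exact h1) hb1 hb2 hb3
    refine ⟨h1.1, fun h0 => h1.2 ?_⟩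
    show σ (j + 1) b (i (Fin.natAdd k b)) (ξ (bl w)) ^ P' (j + 1) (Fin.natAdd k b) = 0
    rw [h0, zero_pow (Nat.one_le_iff_ne_zero.1 (hTw.tw (Fin.natAdd k b)).hP)]
  have hN0 : ∀ b : Fin s, (0 : ℝ) ≤ g b + κ (Fin.natAdd k b) := fun b => by
    exact_mod_cast (hmult w₂ hg b (hΦg b) (hΦg0 b) (hgg b)).1
  set Nn : ℝ := ∑ b : Fin s, ρ (Fin.natAdd k b) * (g b + κ (Fin.natAdd k b)) with hNn
  have hNn0 : 0 ≤ Nn := Finset.sum_nonneg fun b _ => mul_nonneg (h.rho _).le (hN0 b)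
  have hκ0 : ∀ e : Fin k, (0 : ℝ) ≤ κ (Fin.castAdd s e) := fun e => by
    exact_mod_cast hκ _ χ h.kahler (h.nef e)
  have hval : ∑ e, ρ e / Q' (j + 1) e * x e ≤
      1 - J + ∑ b : Fin s, ρ (Fin.natAdd k b) * g b - Nn := by
    have h2 : ∀ e, ρ e / Q' (j + 1) e * (x e : ℝ) = ρ e * m e * (1 - J) - ρ e * κ e := by
      intro e
      rw [hx e]
      have := hQ0 e
      push_cast
      field_simp
    simp only [h2]
    rw [Finset.sum_sub_distrib, ← Finset.sum_mul, h.sum, one_mul,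
      Fin.sum_univ_add (fun e => ρ e * (κ e : ℝ)), hNn]
    simp only [mul_add]
    rw [Finset.sum_add_distrib]
    have h3 : 0 ≤ ∑ e : Fin k, ρ (Fin.castAdd s e) * (κ (Fin.castAdd s e) : ℝ) :=
      Finset.sum_nonneg fun e _ => mul_nonneg (h.rho _).le (hκ0 e)
    linarith
  have hineq := hlt.trans_le hval
  -- the good points near `w₂`
  have hev : ∀ᶠ w in 𝓝 w₂, w ∈ W₁ ∧ (w 0 = 0 → GermV (O (j + 1)) (v (j + 1)) (T (j + 1))
      (f' j ⁻¹' Amin (f j)) W₁ w (fun w => ξ (bl w)) γ ch μ i x J) ∧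
      (AnalyticAt ℂ ΦJ w ∧ ΦJ w ≠ 0 ∧
        ∀ᶠ w' in 𝓝 w, (fderiv ℂ (fun w => ch (γ w)) w').det = w' 0 ^ J * ΦJ w') ∧
      (∀ b, AnalyticAt ℂ (Φg b) w ∧ Φg b w ≠ 0 ∧
        ∀ᶠ w' in 𝓝 w, sg b (μ (Fin.natAdd k b)) (γ w') = w' 0 ^ g b * Φg b w') ∧
      ∀ l, IsLEq (G l) (γ w) (ζ l) ∧ AnalyticAt ℂ (Φ l) w ∧ Φ l w ≠ 0 ∧
        ∀ᶠ w' in 𝓝 w, ζ l (γ w') = w' 0 ^ ν l * Φ l w' := by
    refine (hg.isOpen.eventually_mem hg.mem).and ((germV_move hg).and (Filter.Eventually.and ?_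
      (Filter.Eventually.and ?_ ?_)))
    · exact hΦ1.eventually_analyticAt.and ((hΦ1.continuousAt.eventually_ne hΦ2).and
        hΦ3.eventually_nhds)
    · rw [eventually_all]
      exact fun b => (hΦg b).eventually_analyticAt.and (((hΦg b).continuousAt.eventually_ne
        (hΦg0 b)).and (hgg b).eventually_nhds)
    · rw [eventually_all]
      exact fun l => ((hg.lift w₂ hg.mem).1.eventually (isLEq_eventually (hζ l))).and
        ((hΦ l).eventually_analyticAt.and (((hΦ l).continuousAt.eventually_ne (hΦ0 l)).and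
          (hζΦ l).eventually_nhds))
  obtain ⟨W₂, hW₂s, hW₂, hw₂W₂⟩ := _root_.mem_nhds_iff.1 hev
  have hinG : ∀ w ∈ W₂, w 0 = 0 → ∀ l, γ w ∈ G l ↔ 1 ≤ ν l := by
    intro w hw hw0 l
    obtain ⟨-, -, -, -, h5⟩ := hW₂s hw
    obtain ⟨h6, h7, h8, h9⟩ := h5 l
    have h1 := h6.1.self_of_nhds
    rw [h9.self_of_nhds, hw0] at h1
    rw [← h1]
    constructor
    · intro h2
      by_contra h3
      have h4 : ν l = 0 := by omega
      rw [h4, pow_zero, one_mul] at h2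
      exact h8 h2
    · intro h2
      rw [zero_pow (by omega), zero_mul]
  have hinH : ∀ w ∈ W₂, w 0 = 0 → ∀ b, γ w ∈ range (ι b) ↔ 1 ≤ g b := by
    intro w hw hw0 b
    obtain ⟨h2, -, -, h4, -⟩ := hW₂s hw
    obtain ⟨h6, h7, h8⟩ := h4 b
    have h1 := (h.bd b).zero _ _ (hg.memN w h2 (Fin.natAdd k b))
    rw [h8.self_of_nhds, hw0] at h1
    rw [← h1]
    constructor
    · intro h2
      by_contra h3
      have h4 : g b = 0 := by omega
      rw [h4, pow_zero, one_mul] at h2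
      exact h7 h2
    · intro h2
      rw [zero_pow (by omega), zero_mul]
  have hθ : ∀ w ∈ W₂, w 0 = 0 → ∑ b : Fin s, (T3.zer (L (j + 1) (Fin.natAdd k b))
      (σ (j + 1) b)).indicator (fun _ => ρ (Fin.natAdd k b)) (ξ (bl w)) ≤ Nn := by
    intro w hw hw0
    obtain ⟨h2, h3, -, h4, -⟩ := hW₂s hw
    refine Finset.sum_le_sum fun b _ => ?_
    obtain ⟨h6, h7, h8⟩ := h4 b
    by_cases hz : ξ (bl w) ∈ T3.zer (L (j + 1) (Fin.natAdd k b)) (σ (j + 1) b)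
    · rw [Set.indicator_of_mem hz]
      have h9 := (hmult w (h3 hw0) b h6 h7 h8).2 (hz _ (hg.memU w h2 _))
      have h10 : (1 : ℝ) ≤ g b + κ (Fin.natAdd k b) := by exact_mod_cast h9
      have h11 := h.rho (Fin.natAdd k b)
      nlinarith
    · rw [Set.indicator_of_notMem hz]
      exact mul_nonneg (h.rho _).le (hN0 b)
  have hmemC : ∀ w ∈ W₂, w 0 = 0 → γ w ∈ (T3.bad ι G Λ {i | 1 ≤ ρ (Fin.natAdd k i)} ∪
      T3.cross ι G K) ∩ C := by
    intro w hw hw0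
    have h2 := (hW₂s hw).1
    rw [hagr w h2]
    exact ((hdat w (hWW h2)).2.2.2.2.2 hw0).1
  have hmemB : ∀ w ∈ W₂, w 0 = 0 → γ w ∈ T3.bad ι G
      {l | (∑ e, ρ e * n e l / c 0 e) < 0} {i | 1 ≤ ρ (Fin.natAdd k i)} := by
    intro w hw hw0
    rcases (hmemC w hw hw0).1 with (h2 | h2) | h2
    · obtain ⟨l, hl, hl'⟩ := mem_iUnion₂.1 h2
      exact Or.inl (mem_iUnion₂.2 ⟨l, hΛ l hl, hl'⟩)
    · exact Or.inr h2
    · obtain ⟨l, hl, hl', -⟩ := h2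
      exact Or.inl (mem_iUnion₂.2 ⟨l, hK l hl, hl'⟩)
  -- the numerical condition holds at the points near `w₂`
  have hfin : ∀ w ∈ W₂, w 0 = 0 → T3.BadPC (f' j ⁻¹' Amin (f j))
      (T3.Cor (⋃ l, G l) (fun y => p (v₀ y)) f f' (j + 1)) C
      (T3.bad ι G {l | (∑ e, ρ e * n e l / c 0 e) < -1} {i | 1 < ρ (Fin.natAdd k i)} ∪
        T3.cross ι G {l | -1 ≤ ∑ e, ρ e * n e l / c 0 e ∧ ∑ e, ρ e * n e l / c 0 e < 0})
      ({q | ∃ l ∈ Λ, -1 ≤ ∑ e, ρ e * n e l / c 0 e ∧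
          q = (G l, -∑ e, ρ e * n e l / c 0 e)} ∪
        {q | ∃ i, ρ (Fin.natAdd k i) = 1 ∧ q = (range (ι i), 1)})
      (fun x => ∑ i : Fin s, (T3.zer (L (j + 1) (Fin.natAdd k i)) (σ (j + 1) i)).indicator
        (fun _ => ρ (Fin.natAdd k i)) x) (ξ (bl w)) := by
    intro w hw hw0
    refine ⟨ξ, R, W₂, w, γ, ch, hR, hinj, hopen, hhol, hξS, hW₂, hw, hw0, rfl, fun w' hw' => ?_, ?_⟩
    · obtain ⟨h2, h3, h4, -, -⟩ := hW₂s hw'
      obtain ⟨m1, m2, m3⟩ := hg.lift w' h2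
      refine ⟨hWB w' h2, fun y hy => ?_, m1, m2, m3, fun h0 => ⟨(hmemC w' hw' h0).2, ?_⟩⟩
      · rw [hagr w' h2]
        exact (hdat w' (hWW h2)).2.1 y hy
      · rw [h4.2.2.self_of_nhds, h0, zero_pow (by omega), zero_mul]
    by_cases hA : (∃ l, 1 ≤ ν l ∧ ∑ e, ρ e * n e l / c 0 e < -1) ∨
        (∃ b : Fin s, 1 ≤ g b ∧ 1 < ρ (Fin.natAdd k b)) ∨
        (∃ l, 1 ≤ ν l ∧ -1 ≤ ∑ e, ρ e * n e l / c 0 e ∧ ∑ e, ρ e * n e l / c 0 e < 0 ∧
          ((∃ l', l' ≠ l ∧ 1 ≤ ν l' ∧ -1 ≤ ∑ e, ρ e * n e l' / c 0 e ∧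
            ∑ e, ρ e * n e l' / c 0 e < 0) ∨ ∃ b, 1 ≤ g b))
    · left
      intro w' hw' hw'0
      rcases hA with ⟨l, h1, h2⟩ | ⟨b, h1, h2⟩ | ⟨l, h1, h2, h3, h4⟩
      · exact Or.inl (Or.inl (mem_iUnion₂.2 ⟨l, h2, (hinG w' hw' hw'0 l).2 h1⟩))
      · exact Or.inl (Or.inr (mem_iUnion₂.2 ⟨b, h2, (hinH w' hw' hw'0 b).2 h1⟩))
      · refine Or.inr ⟨l, ⟨h2, h3⟩, (hinG w' hw' hw'0 l).2 h1, ?_⟩
        rcases h4 with ⟨l', h5, h6, h7, h8⟩ | ⟨b, h5⟩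
        · exact Or.inl ⟨l', ⟨h7, h8⟩, h5, (hinG w' hw' hw'0 l').2 h6⟩
        · exact Or.inr ⟨b, (hinH w' hw' hw'0 b).2 h5⟩
    · right
      push Not at hA
      obtain ⟨hA1, hA2, hA3⟩ := hA
      obtain ⟨n1, n2, n3, n4, n5⟩ := hW₂s hw
      have hA3' : ∀ l, 1 ≤ ν l → (fun l => ∑ e, ρ e * n e l / c 0 e) l < 0 → ∀ l', l' ≠ l →
          (fun l => ∑ e, ρ e * n e l / c 0 e) l' < 0 → ν l' = 0 := fun l h1 h2 l' h3 h4 => by
        by_contra h5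
        have h6 := (hA3 l h1 (hA1 l h1) h2).1 l' h3 (by omega) (hA1 l' (by omega))
        linarith
      have hA4' : ∀ l, 1 ≤ ν l → (fun l => ∑ e, ρ e * n e l / c 0 e) l < 0 → ∀ b, g b = 0 :=
          fun l h1 h2 b => by
        by_contra h5
        have h6 := (hA3 l h1 (hA1 l h1) h2).2 b
        omega
      have hnum := num_germ h.lb h.bd h.disj (a := fun l => ∑ e, ρ e * n e l / c 0 e) hsub hdn hξ
        hWB (n2 hw0) hJ1 (fun b => (n4 b).1) (fun b => (n4 b).2.1) (fun b => (n4 b).2.2)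
        (fun l => (n5 l).1) (fun l => (n5 l).2.1) (fun l => (n5 l).2.2.1) (fun l => (n5 l).2.2.2)
        hNn0 hineq (hmemB w hw hw0) hA1 hA2 hA3' hA4'
      have hθw := hθ w hw hw0
      rcases hnum with ⟨l, h1, h2, h3, h4⟩ | ⟨b, h1, h3, h4⟩
      · have hl1 : 1 ≤ ν l := by omega
        have hlΛ : l ∈ Λ := by
          rcases (hmemC w hw hw0).1 with (h5 | h5) | h5
          · obtain ⟨l', hl', h6⟩ := mem_iUnion₂.1 h5
            have h7 := (hinG w hw hw0 l').1 h6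
            by_cases h8 : l' = l
            · rw [← h8]; exact hl'
            · have := hA3' l hl1 h2 l' h8 (hΛ l' hl')
              omega
          · obtain ⟨i', -, h6⟩ := mem_iUnion₂.1 h5
            have h7 := (hinH w hw hw0 i').1 h6
            have := hA4' l hl1 h2 i'
            omega
          · obtain ⟨l₁, h6, h7, ⟨l₂, h8, h9, h10⟩ | ⟨i', h8⟩⟩ := h5
            · have h11 := (hinG w hw hw0 l₁).1 h7
              have h12 := (hinG w hw hw0 l₂).1 h10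
              have := hA3' l₁ h11 (hK l₁ h6) l₂ h9 (hK l₂ h8)
              omega
            · have h11 := (hinG w hw hw0 l₁).1 h7
              have h12 := (hinH w hw hw0 i').1 h8
              have := hA4' l₁ h11 (hK l₁ h6) i'
              omega
        refine ⟨(G l, -∑ e, ρ e * n e l / c 0 e), Or.inl ⟨l, hlΛ, h1, rfl⟩, J, ζ l, hJ1,
          fun w' hw' hw'0 => (hinG w' hw' hw'0 l).2 (by omega), (n5 l).1,
          ⟨Φ l, (n5 l).2.1, (n5 l).2.2.1, ?_⟩, ⟨ΦJ, n3.1, n3.2.1, n3.2.2⟩, ?_⟩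
        · rw [← h3]; exact (n5 l).2.2.2
        · exact h4.trans_le (by linarith)
      · refine ⟨(range (ι b), 1), Or.inr ⟨b, h1, rfl⟩, J, sg b (μ (Fin.natAdd k b)), hJ1,
          fun w' hw' hw'0 => (hinH w' hw' hw'0 b).2 (by omega), ?_,
          ⟨Φg b, (n4 b).1, (n4 b).2.1, ?_⟩, ⟨ΦJ, n3.1, n3.2.1, n3.2.2⟩, ?_⟩
        · have hU := hg.memN w n1 (Fin.natAdd k b)
          refine ⟨?_, fun e he => ⟨((h.bd b).sec.holo _ e _ he hU).analyticAt,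
            fun h0 => (h.bd b).mult _ _ hU h0 e he⟩⟩
          filter_upwards [((h.lb _).isOpen _).mem_nhds hU] with y' hy'
          exact (h.bd b).zero _ _ hy'
        · rw [← h3]; exact (n4 b).2.2
        · exact h4.trans_le (by linarith)
  -- contradiction
  let ins : Cm 4 → Cm 4 := fun z => ![z 0, w₂ 1, z 2, z 3]
  have hins : Continuous ins := by
    refine continuous_pi fun i => ?_
    fin_cases i
    · exact continuous_apply 0
    · exact continuous_const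
    · exact continuous_apply 2
    · exact continuous_apply 3
  have hblins : ∀ z : Cm 4, z 0 = 0 → z 1 = 0 → bl (ins z) = z := by
    intro z h0 h1
    ext i
    fin_cases i
    · rfl
    · show z 0 * w₂ 1 = z 1
      rw [h0, h1, zero_mul]
    · rfl
    · rfl
  have hw2' : ins (bl w₂) = w₂ := by
    ext i
    fin_cases i
    · rfl
    · rfl
    · rfl
    · rfl
  have hb0 : (bl w₂) 0 = 0 := hg.zero
  have hb1 : (bl w₂) 1 = 0 := by
    show w₂ 0 * w₂ 1 = 0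
    rw [hg.zero, zero_mul]
  obtain ⟨z, hz, hz0, hz1, hzB⟩ := H884.N.exists_notMem hξ hBP
    (U := ball (0 : Cm 4) R ∩ ins ⁻¹' W₂)
    (isOpen_ball.inter (hW₂.preimage hins)) inter_subset_left
    (w := bl w₂) ⟨hWB w₂ hg.mem, by show ins (bl w₂) ∈ W₂; rw [hw2']; exact hw₂W₂⟩ hb0 hb1
  refine hzB ?_
  have h1 := hfin (ins z) hz.2 hz0
  rw [hblins z hz0 hz1] at h1
  exact h1

end Vale.Agent.P277.H762.P
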