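import Vale.Agent.P277.H335.K.LiftL
import Vale.Agent.P277.H884.G.GermG
import Vale.Agent.P277.StmtsP

/-!
# P277, (P): auxiliary lemmas
-/

open scoped Manifold ContDiff Topology
open Vale.Agent.P272.K Vale.Agent.P285.H281.FD Vale.Agent.P267.H175 Set Filter Metric

noncomputable section

namespace Vale.Agent.P277.H762.P

open Vale.Agent.P277 Vale.Agent.P277.T2 Vale.Agent.P277.H335 Vale.Agent.P277.H615
open Vale.Agent.P277.H335.RR Vale.Agent.P277.H335.KK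

variable {Y : Type} [TopologicalSpace Y] [ChartedSpace (Cm 4) Y]

section
variable [IsManifold 𝓘(ℂ, Cm 4) ω Y]

/-- change of charts for local equations -/
theorem fderiv_change {ζ : Y → ℂ} {y : Y} {e e' : Chart 4 Y} (he : At e y) (he' : At e' y)
    (h : AnalyticAt ℂ (fun z => ζ (e.symm z)) (e y)) :
    AnalyticAt ℂ (fun z => ζ (e'.symm z)) (e' y) ∧
      (fderiv ℂ (fun z => ζ (e.symm z)) (e y) ≠ 0 →
        fderiv ℂ (fun z => ζ (e'.symm z)) (e' y) ≠ 0) := by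
  have hc' : ContinuousAt e'.symm (e' y) := e'.continuousAt_symm (e'.map_source he'.2)
  have hy' : e'.symm (e' y) = y := e'.left_inv he'.2
  have hev : (fun z => ζ (e'.symm z)) =ᶠ[𝓝 (e' y)] fun z => ζ (e.symm (e (e'.symm z))) := by
    have h1 : ∀ᶠ z in 𝓝 (e' y), e'.symm z ∈ e.source :=
      hc'.eventually_mem (by rw [hy']; exact e.open_source.mem_nhds he.2)
    filter_upwards [h1] with z hz
    rw [e.left_inv hz]
  have hta : AnalyticAt ℂ (fun z => e (e'.symm z)) (e' y) := trans_analyticAt he' he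
  have hty : e (e'.symm (e' y)) = e y := by rw [hy']
  have h' : AnalyticAt ℂ (fun z => ζ (e.symm z)) (e (e'.symm (e' y))) := by rw [hty]; exact h
  refine ⟨(AnalyticAt.comp (g := fun z => ζ (e.symm z)) (f := fun z => e (e'.symm z)) h'
    hta).congr hev.symm, fun hne h0 => hne ?_⟩
  -- go back
  have hc : ContinuousAt e.symm (e y) := e.continuousAt_symm (e.map_source he.2)
  have hy : e.symm (e y) = y := e.left_inv he.2
  have hev2 : (fun z => ζ (e.symm z)) =ᶠ[𝓝 (e y)] fun z => ζ (e'.symm (e' (e.symm z))) := by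
    have h1 : ∀ᶠ z in 𝓝 (e y), e.symm z ∈ e'.source :=
      hc.eventually_mem (by rw [hy]; exact e'.open_source.mem_nhds he'.2)
    filter_upwards [h1] with z hz
    rw [e'.left_inv hz]
  have hta2 : AnalyticAt ℂ (fun z => e' (e.symm z)) (e y) := trans_analyticAt he he'
  have hty2 : e' (e.symm (e y)) = e' y := by rw [hy]
  have h2 : AnalyticAt ℂ (fun z => ζ (e'.symm z)) (e' (e.symm (e y))) := by
    rw [hty2]
    exact (AnalyticAt.comp (g := fun z => ζ (e.symm z)) (f := fun z => e (e'.symm z)) h'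
      hta).congr hev.symm
  rw [hev2.fderiv_eq]
  have h3 := fderiv_comp (e y) (g := fun z => ζ (e'.symm z)) (f := fun z => e' (e.symm z))
    h2.differentiableAt hta2.differentiableAt
  have h4 : ((fun z => ζ (e'.symm z)) ∘ fun z => e' (e.symm z)) =
      fun z => ζ (e'.symm (e' (e.symm z))) := rfl
  rw [h4] at h3
  rw [h3, hty2, h0, ContinuousLinearMap.zero_comp]

theorem isLEq_eventually {G : Set Y} {y : Y} {ζ : Y → ℂ} (h : IsLEq G y ζ) :
    ∀ᶠ y' in 𝓝 y, IsLEq G y' ζ := by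
  set e₀ : Chart 4 Y := chartAt (Cm 4) y with he₀
  have hat : At e₀ y := H19.at_chartAt _
  obtain ⟨h1, h2⟩ := h.2 e₀ hat
  have hce : ContinuousAt e₀ y := e₀.continuousAt hat.2
  have hζc : ContinuousAt ζ y := by
    have h3 : ContinuousAt (fun y' => ζ (e₀.symm (e₀ y'))) y :=
      ContinuousAt.comp (g := fun z => ζ (e₀.symm z)) (f := e₀) h1.continuousAt hce
    refine h3.congr ?_
    filter_upwards [e₀.open_source.mem_nhds hat.2] with y' hy'
    show ζ (e₀.symm (e₀ y')) = ζ y'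
    rw [e₀.left_inv hy']
  have h4 : ∀ᶠ y' in 𝓝 y, ζ y' = 0 → fderiv ℂ (fun z => ζ (e₀.symm z)) (e₀ y') ≠ 0 := by
    by_cases h0 : ζ y = 0
    · have h5 : ContinuousAt (fun y' => fderiv ℂ (fun z => ζ (e₀.symm z)) (e₀ y')) y :=
        ContinuousAt.comp (g := fun z => fderiv ℂ (fun z => ζ (e₀.symm z)) z) (f := e₀)
          h1.fderiv.continuousAt hce
      exact (h5.eventually_ne (h2 h0)).mono fun y' hy' _ => hy'
    · exact (hζc.eventually_ne h0).mono fun y' hy' h => (hy' h).elim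
  filter_upwards [h.1.eventually_nhds, hce.eventually h1.eventually_analyticAt, h4,
    e₀.open_source.mem_nhds hat.2] with y' k1 k2 k3 k4
  refine ⟨k1, fun e he => ?_⟩
  obtain ⟨m1, m2⟩ := fderiv_change (ζ := ζ) (e := e₀) (e' := e) ⟨hat.1, k4⟩ he k2
  exact ⟨m1, fun h0 => m2 (k3 h0)⟩

end

/-- A wedge of `Y` centred in a smooth hypersurface `{ζ = 0}` with Jacobian of order `J < g`, where
`g ≥ 2` is the order of `ζ`, is not injective. -/
theorem eventually_pair {ζ : Y → ℂ} {γ : Cm 4 → Y} {w₂ : Cm 4} (h0 : w₂ 0 = 0)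
    (hγ : ContinuousAt γ w₂) {e : Chart 4 Y} (he : At e (γ w₂))
    (hγa : AnalyticAt ℂ (fun w => e (γ w)) w₂)
    (hζ : AnalyticAt ℂ (fun z => ζ (e.symm z)) (e (γ w₂)))
    (hζd : fderiv ℂ (fun z => ζ (e.symm z)) (e (γ w₂)) ≠ 0) {g J : ℕ} (hg : 2 ≤ g)
    {u u' : Cm 4 → ℂ} (hu : AnalyticAt ℂ u w₂) (hu0 : u w₂ ≠ 0) (hu' : AnalyticAt ℂ u' w₂)
    (hu'0 : u' w₂ ≠ 0) (hs : ∀ᶠ w in 𝓝 w₂, ζ (γ w) = w 0 ^ g * u w)
    (hJ : ∀ᶠ w in 𝓝 w₂, (fderiv ℂ (fun w => e (γ w)) w).det = w 0 ^ J * u' w) (hlt : ¬ g ≤ J)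
    {U : Set (Cm 4)} (hU : U ∈ 𝓝 w₂) :
    ∀ᶠ w in 𝓝 w₂, w 0 ≠ 0 → ∃ w' ∈ U, w' ≠ w ∧ γ w' = γ w := by
  obtain ⟨Ψ, h1, h2, h3, h4⟩ := HY.exists_straight hζ hζd
  set F : Cm 4 → Cm 4 := fun w => Ψ (e (γ w)) with hF
  have hFa : AnalyticAt ℂ F w₂ :=
    AnalyticAt.fun_comp (g := Ψ) (f := fun w => e (γ w)) (h2 _ h1) hγa
  have hsrc : ∀ᶠ w in 𝓝 w₂, γ w ∈ e.source := hγ.eventually_mem (e.open_source.mem_nhds he.2)
  have hsrc2 : ∀ᶠ w in 𝓝 w₂, e (γ w) ∈ Ψ.source :=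
    hγa.continuousAt.eventually_mem (Ψ.open_source.mem_nhds h1)
  have hF0 : ∀ᶠ w in 𝓝 w₂, F w 0 = w 0 ^ g * u w := by
    filter_upwards [hs, hsrc] with w g1 g2
    simp only [hF]
    rw [h4, e.left_inv g2, g1]
  have hdetΨ : AnalyticAt ℂ (fun w => (fderiv ℂ Ψ (e (γ w))).det) w₂ :=
    AnalyticAt.fun_comp (g := fun z => (fderiv ℂ Ψ z).det) (f := fun w => e (γ w))
      (H19.analyticAt_det (h2 _ h1)) hγa
  have hFJ : ∀ᶠ w in 𝓝 w₂, (fderiv ℂ F w).det =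
      w 0 ^ J * ((fderiv ℂ Ψ (e (γ w))).det * u' w) := by
    filter_upwards [hJ, hsrc2, hγa.eventually_analyticAt] with w g1 g2 g3
    have h5 := H19.det_fderiv_comp (F := fun w => e (γ w)) (G := Ψ) (w := w)
      (h2 _ g2).differentiableAt g3.differentiableAt
    simp only [hF]
    rw [h5, g1]
    ring
  have hne : (fderiv ℂ Ψ (e (γ w₂))).det * u' w₂ ≠ 0 :=
    mul_ne_zero (det_ne_zero_of_inv h1 (h2 _ h1) (h3 _ (Ψ.map_source h1))) hu'0
  obtain ⟨k1, k2, -⟩ := H29.stFac F w₂ hFa h0 g J (by omega) u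
    (fun w => (fderiv ℂ Ψ (e (γ w))).det * u' w) hu hu0 (hdetΨ.mul hu') hne hF0 hFJ
  obtain ⟨ρ, hρ, hρ0, hρg⟩ := exists_root hu hu0 (show 1 ≤ g by omega)
  have hproj : AnalyticAt ℂ (fun w : Cm 4 => w 0) w₂ :=
    (ContinuousLinearMap.proj (R := ℂ) (φ := fun _ : Fin 4 => ℂ) 0).analyticAt w₂
  have hprojd : fderiv ℂ (fun w : Cm 4 => w 0) w₂ =
      ContinuousLinearMap.proj (R := ℂ) (φ := fun _ : Fin 4 => ℂ) 0 :=
    (ContinuousLinearMap.proj (R := ℂ) (φ := fun _ : Fin 4 => ℂ) 0).fderiv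
  have haa : AnalyticAt ℂ (fun w : Cm 4 => w 0 * ρ w) w₂ := hproj.mul hρ
  have had : ∀ v, fderiv ℂ (fun w : Cm 4 => w 0 * ρ w) w₂ v = ρ w₂ * v 0 := by
    intro v
    rw [fderiv_fun_mul hproj.differentiableAt hρ.differentiableAt, hprojd]
    simp only [ContinuousLinearMap.add_apply, ContinuousLinearMap.smul_apply,
      ContinuousLinearMap.proj_apply, smul_eq_mul]
    rw [h0]
    ring
  obtain ⟨θ, hθ, hθs⟩ := exists_cons_inv' hFa haa hρ0 had (k2 (by omega))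
  -- the rotation
  set ω' : ℂ := Complex.exp (2 * Real.pi * Complex.I / g) with hω
  have hg0 : g ≠ 0 := by omega
  have hprim := Complex.isPrimitiveRoot_exp g hg0
  have hωg : ω' ^ g = 1 := hprim.pow_eq_one
  have hω1 : ω' ≠ 1 := hprim.ne_one (by omega)
  set rot : Cm 4 → Cm 4 := fun z => Fin.cons (ω' * z 0) fun i : Fin 3 => z i.succ with hrot
  have hrotc : Continuous rot := by
    refine continuous_pi fun i => ?_
    refine Fin.cases ?_ (fun i => ?_) i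
    · simp only [hrot, Fin.cons_zero]
      exact continuous_const.mul (continuous_apply 0)
    · simp only [hrot, Fin.cons_succ]
      exact continuous_apply i.succ
  have hθ0 : θ w₂ 0 = 0 := by rw [hθ]; simp [h0]
  have hrot2 : rot (θ w₂) = θ w₂ := by
    funext j
    refine Fin.cases ?_ (fun j => ?_) j
    · simp [hrot, hθ0]
    · simp [hrot]
  have hθc : ContinuousAt θ w₂ := θ.continuousAt hθs
  have htc : ContinuousAt (fun w => rot (θ w)) w₂ := hrotc.continuousAt.comp hθc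
  have htgt : ∀ᶠ w in 𝓝 w₂, rot (θ w) ∈ θ.target :=
    htc.eventually_mem (by rw [hrot2]; exact θ.open_target.mem_nhds (θ.map_source hθs))
  have hτc : ContinuousAt (fun w => θ.symm (rot (θ w))) w₂ := by
    have h5 : ContinuousAt θ.symm (rot (θ w₂)) := by
      rw [hrot2]
      exact θ.continuousAt_symm (θ.map_source hθs)
    exact ContinuousAt.comp (g := θ.symm) (f := fun w => rot (θ w)) h5 htc
  have hτ2 : θ.symm (rot (θ w₂)) = w₂ := by rw [hrot2, θ.left_inv hθs]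
  -- the good set
  have hgood : ∀ᶠ w in 𝓝 w₂, w ∈ U ∧ γ w ∈ e.source ∧ e (γ w) ∈ Ψ.source ∧
      F w 0 = (w 0 * ρ w) ^ g ∧ ρ w ≠ 0 := by
    filter_upwards [hU, hsrc, hsrc2, hF0, hρg, hρ.continuousAt.eventually_ne hρ0] with
      w m1 m2 m3 m4 m5 m6
    refine ⟨m1, m2, m3, ?_, m6⟩
    rw [m4, mul_pow, m5]
  have hgood2 : ∀ᶠ w in 𝓝 w₂, θ.symm (rot (θ w)) ∈ {w | w ∈ U ∧ γ w ∈ e.source ∧
      e (γ w) ∈ Ψ.source ∧ F w 0 = (w 0 * ρ w) ^ g ∧ ρ w ≠ 0} :=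
    hτc.eventually_mem (by rw [hτ2]; exact hgood)
  filter_upwards [hgood, hgood2, htgt, θ.open_source.mem_nhds hθs] with w m1 m2 m3 m4 hw0
  obtain ⟨n1, n2, n3, n4, n5⟩ := m1
  obtain ⟨p1, p2, p3, p4, p5⟩ := m2
  set w' := θ.symm (rot (θ w)) with hw'
  have hθw' : θ w' = rot (θ w) := θ.right_inv m3
  have q0 : ∀ w, θ w 0 = w 0 * ρ w := fun w => by rw [hθ]; rfl
  have qs : ∀ w (i : Fin 3), θ w i.succ = F w i.succ := fun w i => by rw [hθ]; rfl
  have e0 : w' 0 * ρ w' = ω' * (w 0 * ρ w) := by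
    rw [← q0, ← q0, hθw']; rfl
  refine ⟨w', p1, fun heq => ?_, ?_⟩
  · rw [heq] at e0
    have h5 : (ω' - 1) * (w 0 * ρ w) = 0 := by linear_combination -e0
    rcases mul_eq_zero.1 h5 with h6 | h6
    · exact hω1 (by linear_combination h6)
    · exact (mul_ne_zero hw0 n5) h6
  · have hFF : F w' = F w := by
      funext j
      refine Fin.cases ?_ (fun j => ?_) j
      · rw [p4, n4, e0, mul_pow, hωg, one_mul]
      · rw [← qs, ← qs, hθw']; rfl
    have h5 : e (γ w') = e (γ w) := Ψ.injOn p3 n3 hFF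
    exact e.injOn p2 n2 h5

section

variable {k : ℕ} {X : CSp} {M : Fin k → Bd Y} {m : Fin k → ℕ} {L : Fin k → Bd X.pt}
  {O : Set Y} {v : Y → X.pt}
  {T : ∀ e, (L e).ι → (((Bd.can 4 Y).pow (m e)).mul (M e)).ι → Y → ℂ} {S : Set X.pt}
  {W : Set (Cm 4)} {w₂ : Cm 4} {φ : Cm 4 → X.pt} {γ : Cm 4 → Y} {ch : Chart 4 Y}
  {μ : ∀ e, (M e).ι} {i : ∀ e, (L e).ι} {x : Fin k → ℚ} {J : ℕ}

/-- the germ at the points near `w₂` -/
theorem germV_move (h : GermV O v T S W w₂ φ γ ch μ i x J) :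
    ∀ᶠ w in 𝓝 w₂, w 0 = 0 → GermV O v T S W w φ γ ch μ i x J := by
  obtain ⟨ΦJ, h1, h2, h3⟩ := h.jac
  obtain ⟨K, hK, hun⟩ := h.unit
  choose ν Φ hν hΦ hΦ0 hT using hun
  have hev : ∀ᶠ w in 𝓝 w₂, ∀ e, AnalyticAt ℂ (Φ e) w ∧ Φ e w ≠ 0 ∧
      ∀ᶠ w' in 𝓝 w, γ w' ∈ O → w' 0 ≠ 0 → T e (i e) (ch, μ e) (γ w') ^ K = w' 0 ^ ν e * Φ e w' := by
    rw [eventually_all]
    intro e
    exact (hΦ e).eventually_analyticAt.and
      (((hΦ e).continuousAt.eventually_ne (hΦ0 e)).and (hT e).eventually_nhds)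
  filter_upwards [h.isOpen.mem_nhds h.mem, h1.eventually_analyticAt,
    h1.continuousAt.eventually_ne h2, h3.eventually_nhds, hev] with w m1 m2 m3 m4 m5 hw0
  exact ⟨h.isOpen, m1, hw0, h.hol, h.inS, h.dense, h.lift, h.memN, h.memU, h.lift1, h.lift2, h.ord,
    ⟨ΦJ, m2, m3, m4⟩, ⟨K, hK, fun e => ⟨ν e, Φ e, hν e, (m5 e).1, (m5 e).2.1, (m5 e).2.2⟩⟩⟩

end

end Vale.Agent.P277.H762.P
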