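import Vale.Agent.P277.H29.CY.Trans
import Vale.Agent.P277.H884.Desc
import Vale.Agent.P277.Stmts13

/-!
# P277, (AE): if `- D` is effective, the flipped curves are contained in its support
-/

open scoped Manifold ContDiff Topology
open Vale.Agent.P272.K Vale.Agent.P285.H281.FD Vale.Agent.P267.H175 Set Filter Metric

noncomputable section

namespace Vale.Agent.P277.H762.P

open Vale.Agent.P277 Vale.Agent.P277.T2 Vale.Agent.P277.T3 Vale.Agent.P277.H615
open Vale.Agent.P277.H29.CY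

variable {X Z : CSp} {f : X.pt → Z.pt} {A : Set Z.pt}

/-- powers of sections -/
theorem hol_npow {h : X.pt → ℂ} {x : X.pt} (hh : X.Hol h x) (n : ℕ) : X.Hol (fun y => h y ^ n) x :=
  hol_pow hh n

/-- finite products of holomorphic germs -/
theorem hol_prod {s : ℕ} {h : Fin s → X.pt → ℂ} {x : X.pt} (hh : ∀ i, X.Hol (h i) x) :
    X.Hol (fun y => ∏ i, h i y) x := by
  classical
  have key : ∀ F : Finset (Fin s), X.Hol (fun y => ∏ i ∈ F, h i y) x := by
    intro F
    induction F using Finset.induction_on with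
    | empty => simpa using hol_const (1 : ℂ) x
    | insert a F ha ih =>
      have h1 := hol_mul (hh a) ih
      refine hol_congr h1 (Eventually.of_forall fun y => ?_)
      show ∏ i ∈ insert a F, h i y = h a y * ∏ i ∈ F, h i y
      rw [Finset.prod_insert ha]
  exact key _

/-- (AE) `D = ∑ e, ρ e • D e` is `f`-ample and `D + ∑ i, ε i • B i ∼_ℝ 0`, `ε i ≥ 0`. Then every point
of a positive dimensional fibre of `f` is contained in a `B i` with `ε i > 0`. -/
theorem anti_eff {k s : ℕ} {L : Fin (k + s) → Bd X.pt} (hX : IsNormal 4 X) (hZ : IsNormal 4 Z)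
    (hf : IsSmall X Z f A) (hL : ∀ e, IsLBx X (L e)) {c : Fin (k + s) → ℕ} (hc : ∀ e, 1 ≤ c e)
    {ρ τ : Fin (k + s) → ℝ}
    (hamp : ∃ ε > 0, ∀ (n : Fin (k + s) → ℤ) (d : ℕ), 1 ≤ d →
      (∀ e, |(n e * c e : ℝ) / d - ρ e| < ε) → RelAmple X Z f (Bd.lin L n))
    {ε : Fin s → ℝ} (hε : ∀ i, 0 ≤ ε i)
    (hτ1 : ∀ e : Fin k, τ (Fin.castAdd s e) = ρ (Fin.castAdd s e))
    (hτ2 : ∀ i : Fin s, τ (Fin.natAdd k i) = ρ (Fin.natAdd k i) + ε i)
    (hτ : τ ∈ RTg X L c)
    {σ : ∀ i : Fin s, (L (Fin.natAdd k i)).ι → X.pt → ℂ}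
    (hσ : ∀ i, IsSecx X univ (L (Fin.natAdd k i)) (σ i)) {x x' : X.pt} (hne : x' ≠ x)
    (hxx : f x' = f x) : ∃ i, 0 < ε i ∧ x ∈ zer (L (Fin.natAdd k i)) (σ i) := by
  by_contra hcon
  push Not at hcon
  obtain ⟨δ, hδ, hamp⟩ := hamp
  obtain ⟨n, w, hw, hn, hnw⟩ := approx hL (RTg_le (Z := Z) (f := f) hτ) (δ / 2) (by positivity)
  have hw0 : (0 : ℝ) < w := by exact_mod_cast hw
  -- the integer `N`
  obtain ⟨N, hN⟩ := exists_nat_gt (∑ i : Fin s, (c (Fin.natAdd k i) : ℝ) * (2 / δ) + 1)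
  have hCN : ∀ i : Fin s, (c (Fin.natAdd k i) : ℝ) / N < δ / 2 ∧ (0 : ℝ) < N := by
    intro i
    have h1 : (c (Fin.natAdd k i) : ℝ) * (2 / δ) ≤ ∑ i : Fin s, (c (Fin.natAdd k i) : ℝ) * (2 / δ) :=
      Finset.single_le_sum (f := fun i : Fin s => (c (Fin.natAdd k i) : ℝ) * (2 / δ))
        (fun i _ => by positivity) (Finset.mem_univ i)
    have h0 : (0 : ℝ) ≤ (c (Fin.natAdd k i) : ℝ) * (2 / δ) := by positivity
    have h2 : (0 : ℝ) < N := by linarith
    refine ⟨?_, h2⟩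
    rw [div_lt_iff₀ h2]
    have h3 : (c (Fin.natAdd k i) : ℝ) * (2 / δ) < N := by linarith
    have h4 := mul_lt_mul_of_pos_right h3 (half_pos hδ)
    have h5 : (c (Fin.natAdd k i) : ℝ) * (2 / δ) * (δ / 2) = c (Fin.natAdd k i) := by
      field_simp
    rw [h5] at h4
    linarith
  have hN0 : (0 : ℝ) < N := by
    have h1 : 0 ≤ ∑ i : Fin s, (c (Fin.natAdd k i) : ℝ) * (2 / δ) :=
      Finset.sum_nonneg fun i _ => by positivity
    linarith
  have hN1 : 1 ≤ N := by exact_mod_cast hN0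
  set m : Fin s → ℕ := fun i => ⌈(N : ℝ) * ε i / c (Fin.natAdd k i)⌉₊ with hm
  have hc0 : ∀ e, (0 : ℝ) < c e := fun e => by exact_mod_cast hc e
  have hm1 : ∀ i, |(m i * c (Fin.natAdd k i) : ℝ) / N - ε i| < δ / 2 := by
    intro i
    have h1 : (N : ℝ) * ε i / c (Fin.natAdd k i) ≤ m i := Nat.le_ceil _
    have h2 : (m i : ℝ) < N * ε i / c (Fin.natAdd k i) + 1 :=
      Nat.ceil_lt_add_one (div_nonneg (mul_nonneg hN0.le (hε i)) (hc0 _).le)
    rw [div_le_iff₀ (hc0 _)] at h1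
    have h3 : (m i : ℝ) * c (Fin.natAdd k i) < N * ε i + c (Fin.natAdd k i) := by
      have h4 := mul_lt_mul_of_pos_right h2 (hc0 (Fin.natAdd k i))
      have h5 : (N * ε i / c (Fin.natAdd k i) + 1) * (c (Fin.natAdd k i) : ℝ) =
          N * ε i + c (Fin.natAdd k i) := by
        have := (hc0 (Fin.natAdd k i)).ne'
        field_simp
      rwa [h5] at h4
    have h6 := (hCN i).1
    rw [div_lt_iff₀ hN0] at h6
    rw [abs_lt]
    constructor
    · have h7 : ε i ≤ (m i * c (Fin.natAdd k i) : ℝ) / N := by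
        rw [le_div_iff₀ hN0]
        linarith
      linarith
    · have h7 : (m i * c (Fin.natAdd k i) : ℝ) / N < ε i + δ / 2 := by
        rw [div_lt_iff₀ hN0]
        linarith
      linarith
  have hm2 : ∀ i, 1 ≤ m i → 0 < ε i := by
    intro i hi
    rcases (hε i).lt_or_eq with h1 | h1
    · exact h1
    · exfalso
      have h2 : m i = 0 := by
        simp only [hm, ← h1, mul_zero, zero_div, Nat.ceil_zero]
      omega
  set mm : Fin (k + s) → ℕ := Fin.append (fun _ : Fin k => 0) m with hmm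
  have hmm1 : ∀ e : Fin k, mm (Fin.castAdd s e) = 0 := fun e => by rw [hmm, Fin.append_left]
  have hmm2 : ∀ i : Fin s, mm (Fin.natAdd k i) = m i := fun i => by rw [hmm, Fin.append_right]
  set n2 : Fin (k + s) → ℤ := fun e => N * n e - w * mm e with hn2
  have hamp2 : RelAmple X Z f (Bd.lin L n2) := by
    refine hamp n2 (w * N) (Nat.mul_pos hw hN1) fun e => ?_
    have h1 : ((n2 e * c e : ℝ)) / ((w * N : ℕ) : ℝ) =
        (n e * c e : ℝ) / w - (mm e * c e : ℝ) / N := by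
      simp only [hn2]
      push_cast
      field_simp
    rw [h1]
    refine Fin.addCases (fun e => ?_) (fun i => ?_) e
    · rw [hmm1, Nat.cast_zero, zero_mul, zero_div, sub_zero, ← hτ1]
      exact (hnw _).trans (by linarith)
    · rw [hmm2]
      have h2 := hnw (Fin.natAdd k i)
      rw [hτ2] at h2
      have h3 := hm1 i
      have h4 : (n (Fin.natAdd k i) * c (Fin.natAdd k i) : ℝ) / w -
          (m i * c (Fin.natAdd k i) : ℝ) / N - ρ (Fin.natAdd k i) =
          ((n (Fin.natAdd k i) * c (Fin.natAdd k i) : ℝ) / w - (ρ (Fin.natAdd k i) + ε i)) -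
          ((m i * c (Fin.natAdd k i) : ℝ) / N - ε i) := by ring
      rw [h4]
      exact (abs_sub _ _).trans_lt (by linarith)
  obtain ⟨V₂, κ, q, S, hV₂, hzV₂, hκ, hS, hS0, hSsep, -⟩ := hamp2 (f x)
  obtain ⟨V₁, t, hV₁, hzV₁, ht, ht0⟩ := hn (f x)
  -- the functions
  set C : (∀ e, (L e).ι) → X.pt → ℂ := fun i y =>
    (∏ j : Fin s, σ j (i (Fin.natAdd k j)) y ^ (κ * w * m j)) * ((t i y) ^ (κ * N))⁻¹ with hC
  have hlb2 : IsLBx X (Bd.lin L n2) := IsLBx.lin hL n2
  have hglue : ∀ l, ∃ F : X.pt → ℂ, (∀ y ∈ f ⁻¹' (V₁ ∩ V₂), X.Hol F y) ∧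
      ∀ i y, y ∈ f ⁻¹' (V₁ ∩ V₂) → y ∈ (Bd.lin L n2).U i → F y = S l i y * C i y := by
    intro l
    refine H884.glue hlb2 ((hV₁.inter hV₂).preimage hf.cont) (fun i y => S l i y * C i y)
      (fun i y hy hi => ?_) (fun i j y hy hi hj => ?_)
    · refine hol_mul ((hS l).holo i y hy.2 hi) (hol_mul (hol_prod fun j => hol_pow
        ((hσ j).holo _ y (mem_univ _) (hi _)) _) ?_)
      exact hol_inv (hol_pow (ht.holo i y hy.1 hi) _) (pow_ne_zero _ (ht0 i y hy.1 hi))
    · have h1 : S l i y = (∏ e, (L e).g (i e) (j e) y ^ n2 e) ^ κ * S l j y :=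
        (hS l).change i j y hy.2 hi hj
      have h2 : t i y = (∏ e, (L e).g (i e) (j e) y ^ n e) * t j y := ht.change i j y hy.1 hi hj
      have h3 : ∀ b : Fin s, σ b (i (Fin.natAdd k b)) y =
          (L (Fin.natAdd k b)).g (i (Fin.natAdd k b)) (j (Fin.natAdd k b)) y *
            σ b (j (Fin.natAdd k b)) y := fun b =>
        (hσ b).change _ _ y (mem_univ _) (hi _) (hj _)
      have hg0 : ∀ e, (L e).g (i e) (j e) y ≠ 0 := fun e => (hL e).ne_zero _ _ y (hi e) (hj e)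
      have h4 : (∏ b : Fin s, (L (Fin.natAdd k b)).g (i (Fin.natAdd k b)) (j (Fin.natAdd k b)) y ^
          (κ * w * m b)) = ∏ e, (L e).g (i e) (j e) y ^ (κ * w * mm e) := by
        rw [Fin.prod_univ_add]
        simp only [hmm1, hmm2, mul_zero, pow_zero, Finset.prod_const_one, one_mul]
      have h5 : (∏ e, (L e).g (i e) (j e) y ^ n2 e) ^ κ *
          (∏ e, (L e).g (i e) (j e) y ^ (κ * w * mm e)) =
          (∏ e, (L e).g (i e) (j e) y ^ n e) ^ (κ * N) := by
        rw [← Finset.prod_pow, ← Finset.prod_pow, ← Finset.prod_mul_distrib]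
        refine Finset.prod_congr rfl fun e _ => ?_
        rw [← zpow_natCast, ← zpow_natCast, ← zpow_natCast, ← zpow_mul, ← zpow_mul,
          ← zpow_add₀ (hg0 e)]
        congr 1
        simp only [hn2]
        push_cast
        ring
      have h6 : (∏ e, (L e).g (i e) (j e) y ^ n e) ≠ 0 :=
        Finset.prod_ne_zero_iff.2 fun e _ => zpow_ne_zero _ (hg0 e)
      have h7 : t j y ≠ 0 := ht0 j y hy.1 hj
      have h8 : (∏ b : Fin s, σ b (i (Fin.natAdd k b)) y ^ (κ * w * m b)) =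
          (∏ e, (L e).g (i e) (j e) y ^ (κ * w * mm e)) *
            ∏ b : Fin s, σ b (j (Fin.natAdd k b)) y ^ (κ * w * m b) := by
        rw [← h4, ← Finset.prod_mul_distrib]
        refine Finset.prod_congr rfl fun b _ => ?_
        rw [h3 b, mul_pow]
      show S l i y * ((∏ b : Fin s, σ b (i (Fin.natAdd k b)) y ^ (κ * w * m b)) *
        ((t i y) ^ (κ * N))⁻¹) = S l j y * ((∏ b : Fin s, σ b (j (Fin.natAdd k b)) y ^ (κ * w * m b)) *
        ((t j y) ^ (κ * N))⁻¹)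
      rw [h1, h8, h2, mul_pow, ← h5]
      have h9 : (∏ e, (L e).g (i e) (j e) y ^ n2 e) ^ κ ≠ 0 :=
        pow_ne_zero _ (Finset.prod_ne_zero_iff.2 fun e _ => zpow_ne_zero _ (hg0 e))
      have h10 : (∏ e, (L e).g (i e) (j e) y ^ (κ * w * mm e)) ≠ 0 :=
        Finset.prod_ne_zero_iff.2 fun e _ => pow_ne_zero _ (hg0 e)
      have h11 : (t j y) ^ (κ * N) ≠ 0 := pow_ne_zero _ h7
      field_simp
  choose F hF hFP using hglue
  have hfib : ∀ l, F l x = F l x' := by
    intro l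
    obtain ⟨g, -, hg⟩ := H884.descend hX hZ hf (hV₁.inter hV₂) (h := F l) fun y hy => hF l y hy
    rw [← hg x ⟨hzV₁, hzV₂⟩, ← hg x' (by rw [hxx]; exact ⟨hzV₁, hzV₂⟩), hxx]
  choose i hi using fun e => (hL e).cover x
  choose i' hi' using fun e => (hL e).cover x'
  have hxV : x ∈ f ⁻¹' (V₁ ∩ V₂) := ⟨hzV₁, hzV₂⟩
  have hxV' : x' ∈ f ⁻¹' (V₁ ∩ V₂) := by
    show f x' ∈ V₁ ∩ V₂
    rw [hxx]; exact ⟨hzV₁, hzV₂⟩
  have hCx : C i x ≠ 0 := by
    refine mul_ne_zero (Finset.prod_ne_zero_iff.2 fun j _ => ?_)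
      (inv_ne_zero (pow_ne_zero _ (ht0 i x hzV₁ hi)))
    rcases Nat.eq_zero_or_pos (m j) with h1 | h1
    · rw [h1, mul_zero, pow_zero]; exact one_ne_zero
    · refine pow_ne_zero _ fun h2 => hcon j (hm2 j h1) fun a ha => ?_
      rw [(hσ j).change a (i (Fin.natAdd k j)) x (mem_univ _) ha (hi _), h2, mul_zero]
  have heq : ∀ l, S l i x * C i x = S l i' x' * C i' x' := fun l => by
    rw [← hFP l i x hxV hi, ← hFP l i' x' hxV' hi', hfib l]
  obtain ⟨l₀, hl₀⟩ := hS0 x i hzV₂ hi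
  have hCx' : C i' x' ≠ 0 := by
    intro h1
    have h2 := heq l₀
    rw [h1, mul_zero] at h2
    exact mul_ne_zero hl₀ hCx h2
  obtain ⟨l, l', hll⟩ := hSsep x x' i i' hzV₂ hxx hne hi hi'
  refine hll ?_
  have h1 := heq l
  have h2 := heq l'
  have h3 : (S l i x * S l' i' x' - S l' i x * S l i' x') * (C i x * C i' x') = 0 := by
    calc (S l i x * S l' i' x' - S l' i x * S l i' x') * (C i x * C i' x') =
        (S l i x * C i x) * (S l' i' x' * C i' x') -
          (S l' i x * C i x) * (S l i' x' * C i' x') := by ring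
      _ = 0 := by rw [h1, ← h2]; ring
  exact sub_eq_zero.1 ((mul_eq_zero.1 h3).resolve_right (mul_ne_zero hCx hCx'))

end Vale.Agent.P277.H762.P
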