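import Vale.Agent.P277.H762.P.A1

/-!
# P277, (P): the generic germ of the blow-up of a flipped surface, with the orders of all equations
-/

open scoped Manifold ContDiff Topology
open Vale.Agent.P272.K Vale.Agent.P285.H281.FD Vale.Agent.P267.H175 Set Filter Metric

noncomputable section

namespace Vale.Agent.P277.H762.P

open Vale.Agent.P277 Vale.Agent.P277.T2 Vale.Agent.P277.H335 Vale.Agent.P277.H615
open Vale.Agent.P277.H335.KK
open Vale.Agent.P277.H19 (exists_max_pow analyticAt_det det_fderiv_comp)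

variable {Y : Type} [TopologicalSpace Y] [ChartedSpace (Cm 4) Y]
  [T2Space Y] [CompactSpace Y] [IsManifold 𝓘(ℂ, Cm 4) ω Y]

/-- the generic germ of the blow-up, if it is exceptional over `Y` -/
theorem exists_germP (hTD : StTD) (hDis : T2.StDis) {k r : ℕ} {V X : CSp}
    {vV : Y → V.pt} {D : Set Y} {M : Fin k → Bd Y} {m : Fin k → ℕ}
    {L : Fin k → Bd X.pt} {c : Fin k → ℕ} {O : Set Y} {v : Y → X.pt} {P Q : Fin k → ℕ}
    {T : ∀ e, (L e).ι → (((Bd.can 4 Y).pow (m e)).mul (M e)).ι → Y → ℂ} {ρ : Fin k → ℝ}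
    {S : Set X.pt} {G : Fin r → Set Y} {a : Fin r → ℝ} (hk : 1 ≤ k) (hM : ∀ e, IsLB 4 (M e))
    (hTw : H884.N.Tw1 vV D (fun e => ((Bd.can 4 Y).pow (m e)).mul (M e)) X L c O v P Q T)
    (hch : ChainK (fun e => ((Bd.can 4 Y).pow (m e)).mul (M e)) X L O v T
      (fun e => ρ e / Q e) S G a)
    (hSO : S ⊆ (v '' O)ᶜ)
    {Cr : Y → X.pt → Prop} (hCr : ∀ y x, Cr y x ↔ y ∈ O ∧ v y = x)
    {s : ℕ} {β : Fin s → Fin k}
    {sg : ∀ i, (M (β i)).ι → Y → ℂ} (hsec : ∀ i, IsSec 4 (M (β i)) (sg i))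
    (hsg : ∀ i a y, y ∈ (M (β i)).U a → ∃ᶠ y' in 𝓝 y, sg i a y' ≠ 0)
    {ξ : Cm 4 → X.pt} {R : ℝ} {W₀ : Set (Cm 4)} {w₀ : Cm 4} {γa : Cm 4 → Y} {cha : Chart 4 Y}
    (hξ : H19.LocIso X ξ (ball 0 R))
    (hξS : ∀ z ∈ ball (0 : Cm 4) R, z 0 = 0 → z 1 = 0 → ξ z ∈ S)
    (hW₀ : IsOpen W₀) (hw₀ : w₀ ∈ W₀) (hw₀0 : w₀ 0 = 0)
    (hdat : ∀ w ∈ W₀, bl w ∈ ball (0 : Cm 4) R ∧ (∀ y, Cr y (ξ (bl w)) → γa w = y) ∧
      ContinuousAt γa w ∧ At cha (γa w) ∧ AnalyticAt ℂ (fun w => cha (γa w)) w ∧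
      (w 0 = 0 → (fderiv ℂ (fun w => cha (γa w)) w).det = 0)) :
    ∃ (W : Set (Cm 4)) (w₂ : Cm 4) (γ : Cm 4 → Y) (ch : Chart 4 Y)
      (μ : ∀ e, (M e).ι) (i : ∀ e, (L e).ι) (x : Fin k → ℚ) (J : ℕ) (κ : Fin k → ℤ)
      (g : Fin s → ℕ) (ζ : Fin r → Y → ℂ) (ν : Fin r → ℕ),
      W ⊆ W₀ ∧ GermV O v T S W w₂ (fun w => ξ (bl w)) γ ch μ i x J ∧ (∀ w ∈ W, γ w = γa w) ∧
      1 ≤ J ∧ ∑ l, a l * ν l < ∑ e, ρ e / Q e * x e ∧
      (∀ e, x e = Q e * (m e * (1 - J) - κ e)) ∧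
      (∀ e, ∀ χ : Chart 4 Y → Cm 4 → Matrix (Fin 4) (Fin 4) ℂ, IsKahler χ → Nef χ (M e) →
        0 ≤ κ e) ∧
      (∀ a, ∃ Φg, AnalyticAt ℂ Φg w₂ ∧ Φg w₂ ≠ 0 ∧
        ∀ᶠ w in 𝓝 w₂, sg a (μ (β a)) (γ w) = w 0 ^ g a * Φg w) ∧
      ∀ l, IsLEq (G l) (γ w₂) (ζ l) ∧ ∃ Φg, AnalyticAt ℂ Φg w₂ ∧ Φg w₂ ≠ 0 ∧
        ∀ᶠ w in 𝓝 w₂, ζ l (γ w) = w 0 ^ ν l * Φg w := by
  have hv : IsOpenEmb X O v := (hTw.tw ⟨0, hk⟩).emb
  have hO : DimLe X 2 (v '' O)ᶜ := (hTw.tw ⟨0, hk⟩).dim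
  set φ : Cm 4 → X.pt := fun w => ξ (bl w) with hφdef
  have hWB : ∀ w ∈ W₀, bl w ∈ ball (0 : Cm 4) R := fun w hw => (hdat w hw).1
  have hφ : ∀ w : Cm 4, bl w ∈ ball (0 : Cm 4) R → HolAt X φ w := fun w hw =>
    (hξ.holAt hw).comp (H19.analyticAt_bl w)
  have hφS : ∀ w : Cm 4, bl w ∈ ball (0 : Cm 4) R → w 0 = 0 → ξ (bl w) ∈ S := by
    intro w hw h0
    refine hξS _ hw ?_ ?_
    · exact h0
    · change w 0 * w 1 = 0
      rw [h0, zero_mul]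
  have hcl₀ : W₀ ⊆ closure {w | w ∈ W₀ ∧ φ w ∈ v '' O} := by
    intro w hw
    rw [mem_closure_iff_nhds]
    intro N hN
    obtain ⟨N', hN'N, hN'o, hwN'⟩ := _root_.mem_nhds_iff.1 (inter_mem hN (hW₀.mem_nhds hw))
    obtain ⟨w', hw', hw'0⟩ := H19.exists_ne_zero (hN'o.mem_nhds hwN')
    have h1 : IsOpen (N' ∩ {w : Cm 4 | w 0 ≠ 0}) :=
      hN'o.inter (isOpen_ne_fun (continuous_apply 0) continuous_const)
    obtain ⟨z, ⟨w'', hw'', rfl⟩, hz2⟩ := hξ.dense (by norm_num) hO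
      (H19.isOpen_image_bl h1 fun w hw => hw.2)
      (image_subset_iff.2 fun w hw => hWB _ (hN'N hw.1).2)
      ⟨bl w', mem_image_of_mem bl ⟨hw', hw'0⟩⟩
    exact ⟨w'', (hN'N hw''.1).1, (hN'N hw''.1).2, by simpa using hz2⟩
  choose i hi using fun e => (hTw.lb e).cover (φ w₀)
  -- the lift
  set W' : Set (Cm 4) := {w | w ∈ W₀ ∧ φ w ∈ ⋂ e, (L e).U (i e)} with hW'
  have hW'o : IsOpen W' := by
    have h1 : ContinuousOn φ W₀ := fun w hw => (hφ w (hWB w hw)).1.continuousWithinAt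
    exact h1.isOpen_inter_preimage hW₀ (isOpen_iInter_of_finite fun e => (hTw.lb e).isOpen (i e))
  have hcl' : W' ⊆ closure {w | w ∈ W' ∧ φ w ∈ v '' O} :=
    subset_closure_of_open hW'o (fun w hw => hw.1) hcl₀
  have hW'i : ∀ w ∈ W', ∀ e, φ w ∈ (L e).U (i e) := fun w hw e => mem_iInter.1 hw.2 e
  have hW'B : ∀ w ∈ W', bl w ∈ ball (0 : Cm 4) R := fun w hw => hWB w hw.1
  obtain ⟨w₁, hw₁, hw₁0, W₁, γ, ch, cc, x, hW₁, hw₁W, hW₁W, hγ, hO1, hO2, hT, b,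
    ⟨ζ, ν, A', hζ, hA', hA'f, hζA, hbs⟩, -, hpos⟩ :=
    hch W' w₀ φ i hW'o ⟨hw₀, mem_iInter.2 hi⟩ hw₀0 (fun w hw => hφ w (hW'B w hw)) hcl' hW'i
  have hdW₁ : W₁ ⊆ closure {w | w ∈ W₁ ∧ φ w ∈ v '' O} :=
    subset_closure_of_open hW₁ hW₁W hcl'
  have hagr : ∀ w ∈ W₁, γ w = γa w := by
    intro w hw
    by_contra hne
    obtain ⟨U, U', hU, hU', hwU, hwU', hd⟩ := t2_separation hne
    have h1 := (hγ w hw).1.preimage_mem_nhds (hU.mem_nhds hwU)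
    have h2 := (hdat w (hW₁W hw).1).2.2.1.preimage_mem_nhds (hU'.mem_nhds hwU')
    obtain ⟨w', ⟨h3, h4⟩, h5, h6⟩ := mem_closure_iff_nhds.1 (hdW₁ hw) _ (inter_mem h1 h2)
    have h7 : γ w' ∈ O := hO1 w' h5 h6
    have h9 : γa w' = γ w' :=
      (hdat w' (hW₁W h5).1).2.1 (γ w') ((hCr _ _).2 ⟨h7, hO2 w' h5 h7⟩)
    refine disjoint_left.1 hd h3 ?_
    rw [← h9]; exact h4
  have hpos := hpos (fun w hw hw0 => hφS w (hW'B w hw) hw0)
  obtain ⟨g1, g2, g3, g4⟩ := hγ w₁ hw₁W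
  have hW₁n := hW₁.mem_nhds hw₁W
  -- the orders in a common chart
  have hord : ∀ e, HasOrd {w | γ w ∈ O} w₁ (fun w => T e (i e) (ch, (cc e).2) (γ w)) (x e) := by
    intro e
    refine RR.hasOrd_change (hM e) (hTw.tw e).lb (hTw.tw e).iso hw₁0 g1 (φ := φ) ?_ ?_
      (e := (cc e).1) (g4 e).1 g2 (g4 e).2 g3 (hT e)
    · filter_upwards [hW₁n] with w hw using hW'i w (hW₁W hw) e
    · filter_upwards [hW₁n] with w hw using hO2 w hw
  -- the Jacobian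
  have hdet : ∀ w ∈ W₁, φ w ∈ v '' O → (fderiv ℂ (fun w => ch (γ w)) w).det ≠ 0 := by
    intro w hw hwO
    have hwB : bl w ∈ ball (0 : Cm 4) R := hW'B w (hW₁W hw)
    have hw0 : w 0 ≠ 0 := fun h0 => (hSO (hφS w hwB h0)) hwO
    set y₀ : Y := γ w with hy₀
    have h1 : ∀ᶠ z in 𝓝 w, γ z = hv.inv y₀ (ξ (bl z)) := by
      filter_upwards [hW₁.mem_nhds hw, (hφ w hwB).1.eventually_mem
        (hv.isOpen_image.mem_nhds hwO)] with z hz hzO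
      have h2 := hO1 z hz hzO
      have h3 := hO2 z hz h2
      have h4 : ξ (bl z) = v (γ z) := h3.symm
      rw [h4, hv.inv_apply y₀ h2]
    have heq : (fun w => ch (γ w)) =ᶠ[𝓝 w] fun w => ch (hv.inv y₀ (ξ (bl w))) := by
      filter_upwards [h1] with z hz
      rw [hz]
    have hat : At ch (hv.inv y₀ (ξ (bl w))) := by
      rw [← h1.self_of_nhds]; exact (hγ w hw).2.1
    have hρan := hξ.rho_analyticAt hv y₀ hwB hwO hat
    have hJw : (fderiv ℂ (fun w => ch (γ w)) w).det =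
        (fderiv ℂ (fun w => ch (hv.inv y₀ (ξ w))) (bl w)).det * w 0 := by
      rw [heq.fderiv_eq, ← H19.det_fderiv_bl w]
      exact det_fderiv_comp (G := fun w => ch (hv.inv y₀ (ξ w))) (F := bl) hρan.differentiableAt
        (H19.analyticAt_bl w).differentiableAt
    rw [hJw]
    exact mul_ne_zero (hξ.rho_det_ne_zero hv y₀ hwB hwO hat) hw0
  have hJz : ¬ ∀ᶠ w in 𝓝 w₁, (fderiv ℂ (fun w => ch (γ w)) w).det = 0 := by
    intro hz
    obtain ⟨w, ⟨h1, h2⟩, h3, h4⟩ := mem_closure_iff_nhds.1 (hdW₁ hw₁W) _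
      (hz.and (hW₁.mem_nhds hw₁W))
    exact hdet w h3 h4 h1
  obtain ⟨J, FJ, hFJ, hJFJ, hFJ0⟩ := exists_ord (H19.analyticAt_det g3) hw₁0 hJz
  -- the Jacobian vanishes on the exceptional divisor
  have hdet0 : ∀ w ∈ W₁, w 0 = 0 → (fderiv ℂ (fun w => ch (γ w)) w).det = 0 := by
    intro w hw hw0
    have h2 : γa =ᶠ[𝓝 w] γ := by
      filter_upwards [hW₁.mem_nhds hw] with w hw using (hagr w hw).symm
    have h3 : (fun w => cha (γa w)) =ᶠ[𝓝 w] fun w => cha (γ w) := by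
      filter_upwards [h2] with w hw
      rw [hw]
    obtain ⟨-, -, m1, m2, m3, m4⟩ := hdat w (hW₁W hw).1
    have m5 := m4 hw0
    have h5 : AnalyticAt ℂ (fun w => cha (γ w)) w := m3.congr h3
    have h6 : At cha (γ w) := by rw [hagr w hw]; exact m2
    rw [h3.fderiv_eq] at m5
    rw [H19.det_change (hγ w hw).1 h6 (hγ w hw).2.1 h5, m5, mul_zero]
  -- the sections
  have hsga : ∀ a, AnalyticAt ℂ (fun w => sg a ((cc (β a)).2) (γ w)) w₁ := by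
    intro a
    exact analyticAt_comp_chart g1 g2 g3
      ((hsec a).holo _ ch _ g2 (g4 (β a)).2).analyticAt
  have hsgz : ∀ a, ¬ ∀ᶠ w in 𝓝 w₁, sg a ((cc (β a)).2) (γ w) = 0 := by
    intro a hz
    obtain ⟨w, ⟨h1, h2⟩, h3, h4⟩ := mem_closure_iff_nhds.1 (hdW₁ hw₁W) _
      (hz.eventually_nhds.and (hW₁.mem_nhds hw₁W))
    have h5 := hdet w h3 h4
    obtain ⟨k1, k2, k3, k4⟩ := hγ w h3
    have hinj : Function.Injective (fderiv ℂ (fun w => ch (γ w)) w) := by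
      have h1 : LinearMap.det (fderiv ℂ (fun w => ch (γ w)) w : Cm 4 →ₗ[ℂ] Cm 4) ≠ 0 := h5
      exact (LinearMap.equivOfDetNeZero _ h1).injective
    obtain ⟨θ, hθ, hθs, -, -⟩ := H73.exists_localInv k3 hinj
    -- near `γ w` the section vanishes
    have h6 : ∀ᶠ y' in 𝓝 (γ w), sg a ((cc (β a)).2) y' = 0 := by
      have h7 : Tendsto (fun y' => θ.symm (ch y')) (𝓝 (γ w)) (𝓝 w) := by
        have h8 : ContinuousAt ch (γ w) := ch.continuousAt k2.2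
        have h9 : ch (γ w) ∈ θ.target := by
          have := θ.map_source hθs
          rwa [hθ] at this
        have h10 : ContinuousAt θ.symm (ch (γ w)) := θ.continuousAt_symm h9
        have h11 : Tendsto (fun y' => θ.symm (ch y')) (𝓝 (γ w)) (𝓝 (θ.symm (ch (γ w)))) :=
          (ContinuousAt.comp (g := θ.symm) (f := ch) h10 h8)
        have h12 : θ.symm (ch (γ w)) = w := by
          have := θ.left_inv hθs
          rwa [hθ] at this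
        rwa [h12] at h11
      have h9 : ∀ᶠ y' in 𝓝 (γ w), ch y' ∈ θ.target := by
        refine (ch.continuousAt k2.2).eventually_mem (θ.open_target.mem_nhds ?_)
        have := θ.map_source hθs
        rwa [hθ] at this
      filter_upwards [h7.eventually h1, h7.eventually (hW₁.mem_nhds h3), h9,
        ch.open_source.mem_nhds k2.2] with y' m1 m2 m3 m4
      have m5 : ch (γ (θ.symm (ch y'))) = ch y' := by
        have := θ.right_inv m3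
        rwa [hθ] at this
      have m6 : γ (θ.symm (ch y')) = y' := ch.injOn (hγ _ m2).2.1.2 m4 m5
      rw [m6] at m1
      exact m1
    exact (hsg a _ _ (k4 (β a)).2) (h6.mono fun y' hy' => by simpa using hy')
  choose g Fg hFg hgFg hFg0 using fun a => exists_ord (hsga a) hw₁0 (hsgz a)
  -- a generic point
  have hfr := exists_unit'' hw₁0 hord (κ := Option (Fin s ⊕ Fin r))
    (F := fun o => o.elim FJ (Sum.elim Fg A')) (fun o => by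
      rcases o with _ | a | l
      · exact hFJ
      · exact hFg a
      · exact hA' l) (fun o => by
      rcases o with _ | a | l
      · exact hFJ0
      · exact hFg0 a
      · exact hA'f l)
  have hev : ∀ᶠ w in 𝓝 w₁, w ∈ W₁ ∧ (∀ e, w 0 = 0 →
      HasOrd {w | γ w ∈ O} w (fun w => T e (i e) (ch, (cc e).2) (γ w)) (x e)) ∧
      AnalyticAt ℂ FJ w ∧ (∀ᶠ z in 𝓝 w, (fderiv ℂ (fun w => ch (γ w)) z).det = z 0 ^ J * FJ z) ∧
      (∀ a, AnalyticAt ℂ (Fg a) w ∧ ∀ᶠ z in 𝓝 w, sg a ((cc (β a)).2) (γ z) = z 0 ^ g a * Fg a z) ∧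
      ∀ l, IsLEq (G l) (γ w) (ζ l) ∧ AnalyticAt ℂ (A' l) w ∧
        ∀ᶠ z in 𝓝 w, ζ l (γ z) = z 0 ^ ν l * A' l z := by
    refine (hW₁.eventually_mem hw₁W).and (Filter.Eventually.and ?_
      (hFJ.eventually_analyticAt.and (hJFJ.eventually_nhds.and (Filter.Eventually.and ?_ ?_))))
    · rw [eventually_all]
      exact fun e => (hord e).eventually hw₁0
    · rw [eventually_all]
      exact fun a => (hFg a).eventually_analyticAt.and (hgFg a).eventually_nhds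
    · rw [eventually_all]
      exact fun l => (g1.eventually (isLEq_eventually (hζ l))).and
        ((hA' l).eventually_analyticAt.and (hζA l).eventually_nhds)
  obtain ⟨W₂, hW₂s, hW₂, hw₁W₂⟩ := _root_.mem_nhds_iff.1 hev
  obtain ⟨w₂, ⟨hw₂0, hFne, K, hK, hdat'⟩, hw₂W⟩ := (hfr.and_eventually (hW₂.mem_nhds hw₁W₂)).exists
  choose ν' Φ hν hΦ hΦ0 hrel using hdat'
  have hw₂W₁ : w₂ ∈ W₁ := (hW₂s hw₂W).1
  obtain ⟨k1, k2, k3, k4⟩ := hγ w₂ hw₂W₁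
  obtain ⟨-, -, m3, m4, m5, m6⟩ := hW₂s hw₂W
  have hJ1 : 1 ≤ J := by
    by_contra hJ
    have hJ0 : J = 0 := by omega
    have h1 := m4.self_of_nhds
    rw [hdet0 w₂ hw₂W₁ hw₂0, hJ0, pow_zero, one_mul] at h1
    exact hFne none h1.symm
  have hκ : ∀ e, ∃ κ : ℤ, ν' e = Q e * K * (m e * (1 - J) - κ) ∧
      ∀ χ : Chart 4 Y → Cm 4 → Matrix (Fin 4) (Fin 4) ℂ, IsKahler χ → Nef χ (M e) → 0 ≤ κ := by
    intro e
    refine txV hTD hDis hv hO hSO hξ hφS (hM e) (hTw.tw e).lb (hTw.tw e).hQ (hTw.tw e).iso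
      (hW'B _ (hW₁W hw₂W₁)) hw₂0 k1 k2 (k4 e).2 k3 ?_ (hW'i w₂ (hW₁W hw₂W₁) e) hK (hΦ e).continuousAt
      (hΦ0 e) (hrel e) m3.continuousAt (hFne none) m4
    filter_upwards [hW₁.mem_nhds hw₂W₁] with w hw hwO
    exact ⟨hO1 w hw hwO, hO2 w hw (hO1 w hw hwO)⟩
  choose κ hκ1 hκ2 using hκ
  refine ⟨W₂, w₂, γ, ch, fun e => (cc e).2, i, x, J, κ, g, ζ, ν,
    fun w hw => (hW₁W (hW₂s hw).1).1, ⟨hW₂, hw₂W, hw₂0,
    fun w hw => hφ w (hW'B w (hW₁W (hW₂s hw).1)),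
    fun w hw hw0 => hφS w (hW'B w (hW₁W (hW₂s hw).1)) hw0,
    subset_closure_of_open hW₂ (fun w hw => (hW₂s hw).1) hdW₁,
    fun w hw => ⟨(hγ w (hW₂s hw).1).1, (hγ w (hW₂s hw).1).2.1, (hγ w (hW₂s hw).1).2.2.1⟩,
    fun w hw e => ((hγ w (hW₂s hw).1).2.2.2 e).2, fun w hw => hW'i w (hW₁W (hW₂s hw).1),
    fun w hw => hO1 w (hW₂s hw).1, fun w hw => hO2 w (hW₂s hw).1,
    fun w hw hw0 e => (hW₂s hw).2.1 e hw0, ⟨FJ, m3, hFne none, m4⟩,
    ⟨K, hK, fun e => ⟨ν' e, Φ e, hν e, hΦ e, hΦ0 e, hrel e⟩⟩⟩,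
    fun w hw => hagr w (hW₂s hw).1, hJ1, by rw [← hbs]; exact hpos, fun e => ?_, hκ2,
    fun a => ⟨Fg a, (m5 a).1, hFne (some (Sum.inl a)), (m5 a).2⟩,
    fun l => ⟨(m6 l).1, A' l, (m6 l).2.1, hFne (some (Sum.inr l)), (m6 l).2.2⟩⟩
  have h1 : (K : ℚ) ≠ 0 := by exact_mod_cast (Nat.one_le_iff_ne_zero.1 hK)
  have h2 : x e * K = Q e * (m e * (1 - J) - κ e) * K := by
    rw [← hν e, hκ1 e]
    push_cast
    ring
  exact mul_right_cancel₀ h1 h2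

end Vale.Agent.P277.H762.P
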